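import Vale.Agent.P196.Tile.Def

/-!
# Basic facts: recursion, Wang validity, determination of neighbourhoods
-/

namespace Vale.Agent.P196.Wang

open Tile

theorem tk_succ_eq (k : ℕ) : ∀ x y : ℤ, -2 ^ k ≤ x → x < 2 ^ k → -2 ^ k ≤ y → y < 2 ^ k →
    tk (k + 1) x y = tk k x y := by
  induction k with
  | zero =>
    intro x y h1 h2 h3 h4
    simp only [pow_zero] at h1 h2 h3 h4
    have hx : x = -1 ∨ x = 0 := by omega
    have hy : y = -1 ∨ y = 0 := by omega
    rcases hx with rfl | rfl <;> rcases hy with rfl | rfl <;> decide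
  | succ k ih =>
    intro x y h1 h2 h3 h4
    have e2 : (2 : ℤ) ^ (k + 1) = 2 * 2 ^ k := by ring
    rw [e2] at h1 h2 h3 h4
    have := ih (x / 2) (y / 2) (by omega) (by omega) (by omega) (by omega)
    show (tk (k + 1) (x / 2) (y / 2)).sub _ _ = (tk k (x / 2) (y / 2)).sub _ _
    rw [this]

theorem tk_eq_of_le (k l : ℕ) (hkl : k ≤ l) (x y : ℤ) (h1 : -2 ^ k ≤ x) (h2 : x < 2 ^ k)
    (h3 : -2 ^ k ≤ y) (h4 : y < 2 ^ k) : tk l x y = tk k x y := by
  induction l, hkl using Nat.le_induction with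
  | base => rfl
  | succ l hl ih =>
    have : (2 : ℤ) ^ k ≤ 2 ^ l := pow_le_pow_right₀ (by norm_num) hl
    rw [tk_succ_eq l x y (by linarith) (by linarith) (by linarith) (by linarith), ih]

private theorem natAbs_lt (x : ℤ) (k : ℕ) (hk : x.natAbs ≤ k) : -2 ^ k ≤ x ∧ x < 2 ^ k := by
  have h1 : k < 2 ^ k := Nat.lt_two_pow_self
  have h2 : (k : ℤ) < 2 ^ k := by exact_mod_cast h1
  omega

/-- `t = tk k` for all large `k`. -/
theorem t_eq_tk (x y : ℤ) (k : ℕ) (hx : x.natAbs ≤ k) (hy : y.natAbs ≤ k) :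
    t (x, y) = tk k x y := by
  unfold t
  obtain ⟨a1, a2⟩ := natAbs_lt x k hx
  obtain ⟨a3, a4⟩ := natAbs_lt y k hy
  obtain ⟨b1, b2⟩ := natAbs_lt x (x.natAbs + y.natAbs) (by omega)
  obtain ⟨b3, b4⟩ := natAbs_lt y (x.natAbs + y.natAbs) (by omega)
  rcases le_total (x.natAbs + y.natAbs) k with h | h
  · exact (tk_eq_of_le _ _ h x y b1 b2 b3 b4).symm
  · exact tk_eq_of_le _ _ h x y a1 a2 a3 a4

/-- the recursion of the tiling. -/
theorem t_rec (x y : ℤ) :
    t (x, y) = (t (x / 2, y / 2)).sub (decide (x % 2 = 1)) (decide (y % 2 = 1)) := by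
  set k := x.natAbs + y.natAbs with hk
  rw [t_eq_tk x y (k + 1) (by omega) (by omega),
    t_eq_tk (x / 2) (y / 2) k (by omega) (by omega)]
  rfl

theorem t_00 (x y : ℤ) : t (2 * x, 2 * y) = (t (x, y)).sub false false := by
  rw [t_rec]
  rw [show (2 * x) / 2 = x by omega, show (2 * y) / 2 = y by omega]
  congr 1 <;> simp

theorem t_10 (x y : ℤ) : t (2 * x + 1, 2 * y) = (t (x, y)).sub true false := by
  rw [t_rec]
  rw [show (2 * x + 1) / 2 = x by omega, show (2 * y) / 2 = y by omega]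
  congr 1 <;> simp

theorem t_01 (x y : ℤ) : t (2 * x, 2 * y + 1) = (t (x, y)).sub false true := by
  rw [t_rec]
  rw [show (2 * x) / 2 = x by omega, show (2 * y + 1) / 2 = y by omega]
  congr 1 <;> simp

theorem t_11 (x y : ℤ) : t (2 * x + 1, 2 * y + 1) = (t (x, y)).sub true true := by
  rw [t_rec]
  rw [show (2 * x + 1) / 2 = x by omega, show (2 * y + 1) / 2 = y by omega]
  congr 1 <;> simp

/-- the label is the parity of the coordinates. -/
theorem sub_lab : ∀ (τ : Tile) (a b : Bool), (τ.sub a b).lab = (a, b) := by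
  intro τ a b; cases a <;> cases b <;> rfl

theorem t_lab (x y : ℤ) : (t (x, y)).lab = (decide (x % 2 = 1), decide (y % 2 = 1)) := by
  rw [t_rec, sub_lab]

theorem t_lab' (u : ℤ × ℤ) : (t u).lab = (decide (u.1 % 2 = 1), decide (u.2 % 2 = 1)) :=
  t_lab u.1 u.2

/-! ### finite facts -/

theorem sub_h0 : ∀ τ : Tile, (τ.sub false false).east = (τ.sub true false).west ∧
    (τ.sub false true).east = (τ.sub true true).west ∧
    (τ.sub false false).north = (τ.sub false true).south ∧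
    (τ.sub true false).north = (τ.sub true true).south := by decide

/-- a tile is determined by its Wang colours. -/
theorem ext_colour : ∀ τ τ' : Tile, τ.lab = τ'.lab → τ.e = τ'.e → τ.w = τ'.w → τ.n = τ'.n →
    τ.s = τ'.s → τ = τ' := by decide +kernel

theorem sub_e00 (τ : Tile) : (τ.sub false false).e = τ.e := by
  cases τ <;> rfl
theorem sub_w00 (τ : Tile) : (τ.sub false false).w = τ.w := by
  cases τ <;> rfl
theorem sub_n00 (τ : Tile) : (τ.sub false false).n = τ.n := by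
  cases τ <;> rfl
theorem sub_s00 (τ : Tile) : (τ.sub false false).s = τ.s := by
  cases τ <;> rfl
theorem sub_e10 : ∀ τ : Tile, (τ.sub true false).e = τ.e := by decide
theorem sub_n01 : ∀ τ : Tile, (τ.sub false true).n = τ.n := by decide
theorem sub_w01 : ∀ τ : Tile, (τ.sub false true).w = ((!τ.lab.1, τ.lab.2), true) := by decide
theorem sub_s10 : ∀ τ : Tile, (τ.sub true false).s = ((τ.lab.1, !τ.lab.2), true) := by decide
theorem sub_e11 (τ : Tile) : (τ.sub true true).e = (τ.lab, true) := rfl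
theorem sub_n11 (τ : Tile) : (τ.sub true true).n = (τ.lab, true) := rfl

/-! ### validity -/

/-- horizontal validity -/
theorem t_east (x y : ℤ) : (t (x, y)).e = (t (x + 1, y)).w := by
  obtain ⟨k, hx, hy⟩ : ∃ k : ℕ, x.natAbs ≤ k ∧ y.natAbs ≤ k :=
    ⟨x.natAbs + y.natAbs, by omega, by omega⟩
  induction k using Nat.strong_induction_on generalizing x y with
  | _ k ih =>
    by_cases hbase : x = -1 ∧ (y = 0 ∨ y = -1)
    · obtain ⟨rfl, rfl | rfl⟩ := hbase <;> decide
    · obtain ⟨X, hX⟩ := Int.even_or_odd' x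
      obtain ⟨Y, hY⟩ := Int.even_or_odd' y
      rcases hX with rfl | rfl <;> rcases hY with rfl | rfl
      · rw [t_00, t_10]; exact congrArg Prod.fst (sub_h0 (t (X, Y))).1
      · rw [t_01, t_11]; exact congrArg Prod.fst (sub_h0 (t (X, Y))).2.1
      · have hrec : (t (X, Y)).e = (t (X + 1, Y)).w := by
          by_cases hk0 : X.natAbs ≤ k - 1 ∧ Y.natAbs ≤ k - 1 ∧ k ≠ 0
          · exact ih (k - 1) (by omega) X Y hk0.1 hk0.2.1
          · exfalso; omega
        rw [show 2 * X + 1 + 1 = 2 * (X + 1) by ring, t_10, t_00, sub_e10, sub_w00, hrec]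
      · rw [show 2 * X + 1 + 1 = 2 * (X + 1) by ring, t_11, t_01, sub_e11, sub_w01, t_lab, t_lab]
        have h1 : decide ((X + 1) % 2 = 1) = !decide (X % 2 = 1) := by
          rw [← decide_not, decide_eq_decide]; omega
        rw [h1]; simp

/-- vertical validity -/
theorem t_north (x y : ℤ) : (t (x, y)).n = (t (x, y + 1)).s := by
  obtain ⟨k, hx, hy⟩ : ∃ k : ℕ, x.natAbs ≤ k ∧ y.natAbs ≤ k :=
    ⟨x.natAbs + y.natAbs, by omega, by omega⟩
  induction k using Nat.strong_induction_on generalizing x y with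
  | _ k ih =>
    by_cases hbase : y = -1 ∧ (x = 0 ∨ x = -1)
    · obtain ⟨rfl, rfl | rfl⟩ := hbase <;> decide
    · obtain ⟨X, hX⟩ := Int.even_or_odd' x
      obtain ⟨Y, hY⟩ := Int.even_or_odd' y
      rcases hX with rfl | rfl <;> rcases hY with rfl | rfl
      · rw [t_00, t_01]; exact congrArg Prod.fst (sub_h0 (t (X, Y))).2.2.1
      · have hrec : (t (X, Y)).n = (t (X, Y + 1)).s := by
          by_cases hk0 : X.natAbs ≤ k - 1 ∧ Y.natAbs ≤ k - 1 ∧ k ≠ 0
          · exact ih (k - 1) (by omega) X Y hk0.1 hk0.2.1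
          · exfalso; omega
        rw [show 2 * Y + 1 + 1 = 2 * (Y + 1) by ring, t_01, t_00, sub_n01, sub_s00, hrec]
      · rw [t_10, t_11]; exact congrArg Prod.fst (sub_h0 (t (X, Y))).2.2.2
      · rw [show 2 * Y + 1 + 1 = 2 * (Y + 1) by ring, t_11, t_10, sub_n11, sub_s10, t_lab, t_lab]
        have h1 : decide ((Y + 1) % 2 = 1) = !decide (Y % 2 = 1) := by
          rw [← decide_not, decide_eq_decide]; omega
        rw [h1]; simp

theorem t_lab_east (x y : ℤ) :
    (t (x + 1, y)).lab = (!(t (x, y)).lab.1, (t (x, y)).lab.2) := by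
  rw [t_lab, t_lab]
  have h1 : decide ((x + 1) % 2 = 1) = !decide (x % 2 = 1) := by
    rw [← decide_not, decide_eq_decide]; omega
  rw [h1]

theorem t_lab_north (x y : ℤ) :
    (t (x, y + 1)).lab = ((t (x, y)).lab.1, !(t (x, y)).lab.2) := by
  rw [t_lab, t_lab]
  have h1 : decide ((y + 1) % 2 = 1) = !decide (y % 2 = 1) := by
    rw [← decide_not, decide_eq_decide]; omega
  rw [h1]

theorem t_wang_h (x y : ℤ) : (t (x, y)).east = (t (x + 1, y)).west := by
  unfold east west
  rw [t_east, t_lab_east]; simp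

theorem t_wang_v (x y : ℤ) : (t (x, y)).north = (t (x, y + 1)).south := by
  unfold north south
  rw [t_north, t_lab_north]; simp

/-! ### the `3 × 3` neighbourhood of `2u` is determined by `t u` -/

/-- the tile at `(2x-1, 2y)`, as a function of `t (x, y)` -/
def subW (τ : Tile) : Tile :=
  .hh τ.w.1 (!τ.lab.1) (if τ.lab.2 then none else some τ.w.2)
/-- the tile at `(2x, 2y-1)`, as a function of `t (x, y)` -/
def subS (τ : Tile) : Tile :=
  .vv τ.s.1 (!τ.lab.2) (if τ.lab.1 then none else some τ.s.2)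

theorem t_m0 (x y : ℤ) : t (2 * x - 1, 2 * y) = subW (t (x, y)) := by
  have h := t_lab_east (x - 1) y
  have h2 := t_east (x - 1) y
  rw [show x - 1 + 1 = x by ring] at h h2
  rw [show 2 * x - 1 = 2 * (x - 1) + 1 by ring, t_10]
  unfold subW sub
  rw [h2, h]; simp

theorem t_0m (x y : ℤ) : t (2 * x, 2 * y - 1) = subS (t (x, y)) := by
  have h := t_lab_north x (y - 1)
  have h2 := t_north x (y - 1)
  rw [show y - 1 + 1 = y by ring] at h h2
  rw [show 2 * y - 1 = 2 * (y - 1) + 1 by ring, t_01]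
  unfold subS sub
  rw [h2, h]; simp

theorem t_mm (x y : ℤ) : t (2 * x - 1, 2 * y - 1) =
    .cc (!(t (x, y)).lab.1, !(t (x, y)).lab.2) := by
  have h := t_lab_east (x - 1) (y - 1)
  have h2 := t_lab_north x (y - 1)
  rw [show x - 1 + 1 = x by ring] at h
  rw [show y - 1 + 1 = y by ring] at h2
  rw [show 2 * x - 1 = 2 * (x - 1) + 1 by ring, show 2 * y - 1 = 2 * (y - 1) + 1 by ring, t_11]
  unfold sub
  rw [h2, h]; simp

theorem t_m1 (x y : ℤ) : t (2 * x - 1, 2 * y + 1) =
    .cc (!(t (x, y)).lab.1, (t (x, y)).lab.2) := by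
  have h := t_lab_east (x - 1) y
  rw [show x - 1 + 1 = x by ring] at h
  rw [show 2 * x - 1 = 2 * (x - 1) + 1 by ring, t_11]
  unfold sub
  rw [h]; simp

theorem t_1m (x y : ℤ) : t (2 * x + 1, 2 * y - 1) =
    .cc ((t (x, y)).lab.1, !(t (x, y)).lab.2) := by
  have h2 := t_lab_north x (y - 1)
  rw [show y - 1 + 1 = y by ring] at h2
  rw [show 2 * y - 1 = 2 * (y - 1) + 1 by ring, t_11]
  unfold sub
  rw [h2]; simp

/-- the `3 × 3` neighbourhood of `(2x, 2y)` is determined by `t (x, y)`. -/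
theorem near_one {x y x' y' : ℤ} (h : t (x, y) = t (x', y')) (a b : ℤ) (ha : |a| ≤ 1)
    (hb : |b| ≤ 1) : t (2 * x + a, 2 * y + b) = t (2 * x' + a, 2 * y' + b) := by
  rw [abs_le] at ha hb
  have ha' : a = -1 ∨ a = 0 ∨ a = 1 := by omega
  have hb' : b = -1 ∨ b = 0 ∨ b = 1 := by omega
  rcases ha' with rfl | rfl | rfl <;> rcases hb' with rfl | rfl | rfl <;>
    simp only [add_zero, ← sub_eq_add_neg, t_m0, t_0m, t_mm, t_m1, t_1m, t_00, t_10, t_01, t_11, h]

/-- **[T-hier]** the open neighbourhood of radius `2^N` of the level-`N` corner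
`(2^N x, 2^N y)` is determined by the tile `t (x, y)`. -/
theorem near (N : ℕ) {x y x' y' : ℤ} (h : t (x, y) = t (x', y')) (a b : ℤ)
    (ha : |a| < 2 ^ N) (hb : |b| < 2 ^ N) :
    t (2 ^ N * x + a, 2 ^ N * y + b) = t (2 ^ N * x' + a, 2 ^ N * y' + b) := by
  induction N generalizing x y x' y' a b with
  | zero =>
    rw [pow_zero, Int.abs_lt_one_iff] at ha hb
    subst ha hb
    simpa using h
  | succ N ih =>
    have e2 : (2 : ℤ) ^ (N + 1) = 2 * 2 ^ N := by ring
    rw [e2, abs_lt] at ha hb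
    have key : ∀ a : ℤ, -(2 * 2 ^ N) < a ∧ a < 2 * 2 ^ N → ∃ e a' : ℤ, |e| ≤ 1 ∧ |a'| < 2 ^ N ∧
        a = 2 ^ N * e + a' := by
      intro a ha
      have hp : (0 : ℤ) < 2 ^ N := by positivity
      by_cases h1 : 2 ^ N ≤ a
      · exact ⟨1, a - 2 ^ N, by norm_num, by rw [abs_lt]; constructor <;> linarith [ha.2], by ring⟩
      · by_cases h2 : a ≤ -2 ^ N
        · exact ⟨-1, a + 2 ^ N, by norm_num, by rw [abs_lt]; constructor <;> linarith [ha.1],
            by ring⟩
        · exact ⟨0, a, by norm_num, by rw [abs_lt]; constructor <;> linarith, by ring⟩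
    obtain ⟨e, a', he, ha', rfl⟩ := key a ha
    obtain ⟨f, b', hf, hb', rfl⟩ := key b hb
    have := ih (near_one h e f he hf) a' b' ha' hb'
    rw [show (2 : ℤ) ^ (N + 1) * x + (2 ^ N * e + a') = 2 ^ N * (2 * x + e) + a' by ring,
      show (2 : ℤ) ^ (N + 1) * y + (2 ^ N * f + b') = 2 ^ N * (2 * y + f) + b' by ring,
      show (2 : ℤ) ^ (N + 1) * x' + (2 ^ N * e + a') = 2 ^ N * (2 * x' + e) + a' by ring,
      show (2 : ℤ) ^ (N + 1) * y' + (2 ^ N * f + b') = 2 ^ N * (2 * y' + f) + b' by ring, this]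

end Vale.Agent.P196.Wang
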