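import Vale.Agent.P196.Tile.Edge
import Vale.Agent.P196.Cut.Defs

/-!
# Instances: `LocalSets LS`, the coarse type system of the tiling, anchors are local,
the groups of the cell systems are contained in `grp ι LS`
-/

namespace Vale.Agent.P196.Wang

open Tile Vale.Agent.P196.S0 Vale.Agent.P196.Cut

/-- `LS` satisfies the axioms of `LocalSets`. -/
theorem localSets : LocalSets LS where
  univ := LS_univ
  compl _ h := LS_compl h
  inter _ h _ h' := LS_inter h h'
  trans _ h v := LS_translate h v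
  free v hv u := by
    obtain ⟨F, h1, h2, h3⟩ := LS_free v hv
    obtain ⟨E, hE, hu⟩ := h2 u
    refine ⟨E, h1 E hE, hu, fun x hx hx' => ?_⟩
    exact Set.disjoint_left.1 (h3 E hE) hx hx'
  recur E hE hne := LS_rec E hE hne

private theorem sub_e1 (p : Z2) : p - (1, 0) = (p.1 - 1, p.2) := by
  refine Prod.ext ?_ ?_ <;> simp
private theorem sub_e2 (p : Z2) : p - (0, 1) = (p.1, p.2 - 1) := by
  refine Prod.ext ?_ ?_ <;> simp

/-- the coarse types of the tiling (the same for all levels). -/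
def tySys : TySys Tile WCol WCol (Bool × Bool) where
  ty := t
  th p := (t p).east
  tv p := (t p).north
  tf p := (t p).lab
  ty_th p p' h := (types_of_t h).1
  ty_th' p p' h := by
    change (t (p - (1, 0))).east = (t (p' - (1, 0))).east
    rw [sub_e1, sub_e1]; exact (types_of_t h).2.2.1
  ty_tv p p' h := (types_of_t h).2.1
  ty_tv' p p' h := by
    change (t (p - (0, 1))).north = (t (p' - (0, 1))).north
    rw [sub_e2, sub_e2]; exact (types_of_t h).2.2.2
  th_tf p p' h := congrArg Prod.snd h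
  th_tf' p p' h := by
    have := lab_add (p := p) (p' := p') (congrArg Prod.snd h) (-(0, 1))
    simpa [sub_eq_add_neg] using this
  tv_tf p p' h := congrArg Prod.snd h
  tv_tf' p p' h := by
    have := lab_add (p := p) (p' := p') (congrArg Prod.snd h) (-(1, 0))
    simpa [sub_eq_add_neg] using this

/-- anchors given by a local set of coarse points are local. -/
theorem LS_anchor (m : ℕ) {N : ℤ} (hN : N = 2 ^ m) {F : Set Z2} (hF : F ∈ LS) :
    {x : Z2 | ∃ p : Z2, x = N • p ∧ p ∈ F} ∈ LS := by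
  subst hN
  have := LS_scale m (0, 0) hF
  convert this using 1
  ext x
  constructor
  · rintro ⟨p, rfl, hp⟩
    exact ⟨p, hp, by simp [Prod.ext_iff]⟩
  · rintro ⟨p, hp, rfl⟩
    exact ⟨p, by simp [Prod.ext_iff], hp⟩

theorem LS_ty (θ : Tile) : {p : Z2 | t p = θ} ∈ LS := LS_tile_zero {θ}
theorem LS_th (θ : WCol) : {p : Z2 | (t p).east = θ} ∈ LS := LS_tile_zero {τ | τ.east = θ}
theorem LS_tv (θ : WCol) : {p : Z2 | (t p).north = θ} ∈ LS := LS_tile_zero {τ | τ.north = θ}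
theorem LS_tf (θ : Bool × Bool) : {p : Z2 | (t p).lab = θ} ∈ LS := LS_tile_zero {τ | τ.lab = θ}

theorem LS_te (h : Bool) (θ : WCol ⊕ WCol) : {p : Z2 | tySys.te h p = θ} ∈ LS := by
  cases h
  · rcases θ with θ | θ
    · convert LS_empty using 1
      ext p; simp [TySys.te]
    · convert LS_tv θ using 1
      ext p; simp [TySys.te, tySys]
  · rcases θ with θ | θ
    · convert LS_th θ using 1
      ext p; simp [TySys.te, tySys]
    · convert LS_empty using 1
      ext p; simp [TySys.te]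

section cs

variable {N : ℤ} {J Θ : Type} (C : CS N J Θ)

/-- the anchors of a cell system with local types are local. -/
theorem CS_E_mem (m : ℕ) (hN : N = 2 ^ m) (hC : ∀ j θ, {p : Z2 | C.typ j p = θ} ∈ LS) (j : J)
    (θ : Θ) : C.E j θ ∈ LS :=
  LS_anchor m hN (hC j θ)

variable (ι : Type) [Fintype ι] [DecidableEq ι]

theorem CS_X_le (hι : 5 ≤ Fintype.card ι) (hE : ∀ j θ, C.E j θ ∈ LS) (j : J) (θ : Θ) :
    C.X ι j θ ≤ grp ι LS := by
  rintro _ ⟨σ, hσ, rfl⟩
  exact blow_mem hι (hE j θ) _ σ hσ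

theorem CS_G_le (hι : 5 ≤ Fintype.card ι) (hE : ∀ j θ, C.E j θ ∈ LS) : C.G ι ≤ grp ι LS :=
  iSup_le fun q => CS_X_le C ι hι hE q.1 q.2

end cs

section sys

variable {M : ℤ} (hM : 0 < M) (m : ℕ) (hN : 2 * M = 2 ^ m)

include hN

theorem Vsys_E (j θ) : (Vsys hM tySys).E j θ ∈ LS := CS_E_mem _ m hN (fun _ θ => LS_ty θ) j θ
theorem Fsys_E (j θ) : (Fsys hM tySys).E j θ ∈ LS := CS_E_mem _ m hN (fun _ θ => LS_tf θ) j θ
theorem Rsys_E (j θ) : (Rsys hM tySys).E j θ ∈ LS := CS_E_mem _ m hN (fun h θ => LS_te h θ) j θ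
theorem RSsys_E (s : ℤ) (j θ) : (RSsys hM s tySys).E j θ ∈ LS :=
  CS_E_mem _ m hN (fun h θ => LS_te h θ) j θ
theorem Ssys_E (j θ) : (Ssys hM tySys).E j θ ∈ LS :=
  CS_E_mem _ m hN (fun h θ => LS_te h.1 θ) j θ
theorem Qsys_E (j θ) : (Qsys hM tySys).E j θ ∈ LS := CS_E_mem _ m hN (fun _ θ => LS_tf θ) j θ
theorem Zsys_E (j θ) : (Zsys hM tySys).E j θ ∈ LS := CS_E_mem _ m hN (fun _ θ => LS_tf θ) j θ

variable (ι : Type) [Fintype ι] [DecidableEq ι] (hι : 5 ≤ Fintype.card ι)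

include hι

theorem Vsys_G_le : (Vsys hM tySys).G ι ≤ grp ι LS := CS_G_le _ ι hι (Vsys_E hM m hN)
theorem Fsys_G_le : (Fsys hM tySys).G ι ≤ grp ι LS := CS_G_le _ ι hι (Fsys_E hM m hN)
theorem Rsys_G_le : (Rsys hM tySys).G ι ≤ grp ι LS := CS_G_le _ ι hι (Rsys_E hM m hN)
theorem RSsys_G_le (s : ℤ) : (RSsys hM s tySys).G ι ≤ grp ι LS :=
  CS_G_le _ ι hι (RSsys_E hM m hN s)
theorem Ssys_G_le : (Ssys hM tySys).G ι ≤ grp ι LS := CS_G_le _ ι hι (Ssys_E hM m hN)
theorem Qsys_G_le : (Qsys hM tySys).G ι ≤ grp ι LS := CS_G_le _ ι hι (Qsys_E hM m hN)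
theorem Zsys_G_le : (Zsys hM tySys).G ι ≤ grp ι LS := CS_G_le _ ι hι (Zsys_E hM m hN)

end sys

end Vale.Agent.P196.Wang
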