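import Vale.Agent.P196.Tile.Basic

/-!
# [T-AM]: tiling input for amenability

Colours of horizontal (vertical) lines of level `< j` are determined by the class mod `2^(j+1)`;
a tile on a horizontal line of level `≥ M`, away from the vertical lines of level `≥ M`, is
determined by the class mod `2^(M+1)` and the colour of the segment.
-/

namespace Vale.Agent.P196.Wang

open Tile

/-! ### colours of lines -/

/-- a horizontal line colour of level `≥ 1` is the colour of the desubstituted line -/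
theorem e_half (x y : ℤ) : (t (x, 2 * y)).e = (t (x / 2, y)).e := by
  obtain ⟨A, hA⟩ := Int.even_or_odd' x
  rcases hA with rfl | rfl
  · rw [t_00, sub_e00, show (2 * A) / 2 = A by omega]
  · rw [t_10, sub_e10, show (2 * A + 1) / 2 = A by omega]

theorem n_half (x y : ℤ) : (t (2 * x, y)).n = (t (x, y / 2)).n := by
  obtain ⟨A, hA⟩ := Int.even_or_odd' y
  rcases hA with rfl | rfl
  · rw [t_00, sub_n00, show (2 * A) / 2 = A by omega]
  · rw [t_01, sub_n01, show (2 * A + 1) / 2 = A by omega]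

/-- the colour of the horizontal line `2^M l` over `[2^M k, 2^M (k+1))` is `(t (k,l)).e`. -/
theorem e_line (M : ℕ) (x l : ℤ) : (t (x, 2 ^ M * l)).e = (t (x / 2 ^ M, l)).e := by
  induction M generalizing x with
  | zero => simp
  | succ M ih =>
    rw [show (2 : ℤ) ^ (M + 1) * l = 2 * (2 ^ M * l) by ring, e_half, ih,
      show (2 : ℤ) ^ (M + 1) = 2 * 2 ^ M by ring, Int.ediv_ediv_of_nonneg (by norm_num)]

/-- the colour of the vertical line `2^M k` over `[2^M l, 2^M (l+1))` is `(t (k,l)).n`. -/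
theorem n_line (M : ℕ) (k y : ℤ) : (t (2 ^ M * k, y)).n = (t (k, y / 2 ^ M)).n := by
  induction M generalizing y with
  | zero => simp
  | succ M ih =>
    rw [show (2 : ℤ) ^ (M + 1) * k = 2 * (2 ^ M * k) by ring, n_half, ih,
      show (2 : ℤ) ^ (M + 1) = 2 * 2 ^ M by ring, Int.ediv_ediv_of_nonneg (by norm_num)]

private theorem dvd_help (j : ℕ) (Y : ℤ) (h : ¬ (2 : ℤ) ^ (j + 1) ∣ 2 * Y) : ¬ (2 : ℤ) ^ j ∣ Y := by
  intro h'
  apply h
  rw [pow_succ, mul_comm ((2 : ℤ) ^ j) 2]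
  exact mul_dvd_mul_left 2 h'

private theorem mod_split (j : ℕ) (X X' : ℤ) (h : (2 : ℤ) ^ (j + 1) ∣ X' - X) :
    ∃ A A' a : ℤ, X = 2 * A + a ∧ X' = 2 * A' + a ∧ (a = 0 ∨ a = 1) ∧ (2 : ℤ) ^ j ∣ A' - A := by
  obtain ⟨c, hc⟩ := h
  refine ⟨X / 2, X' / 2, X % 2, by omega, ?_, by omega, c, ?_⟩
  · have : X' = X + 2 * (2 ^ j * c) := by rw [pow_succ] at hc; linarith
    omega
  · have : X' = X + 2 * (2 ^ j * c) := by rw [pow_succ] at hc; linarith
    omega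

private theorem par_eq (j : ℕ) (A A' : ℤ) (h : (2 : ℤ) ^ (j + 1) ∣ A' - A) :
    decide (A % 2 = 1) = decide (A' % 2 = 1) := by
  obtain ⟨c, hc⟩ := h
  have : A' = A + 2 * (2 ^ j * c) := by rw [pow_succ] at hc; linarith
  rw [decide_eq_decide]; omega

private theorem lab_eq (j : ℕ) (A A' B B' : ℤ) (h : (2 : ℤ) ^ (j + 1) ∣ A' - A)
    (h' : (2 : ℤ) ^ (j + 1) ∣ B' - B) : (t (A, B)).lab = (t (A', B')).lab := by
  rw [t_lab, t_lab, par_eq j A A' h, par_eq j B B' h']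

theorem sub_e01 : ∀ τ : Tile, (τ.sub false true).e = (τ.lab, false) := by decide
theorem sub_n10 : ∀ τ : Tile, (τ.sub true false).n = (τ.lab, false) := by decide

/-- the colour of a horizontal line of level `< j` at `x` is determined by the classes
mod `2^(j+1)`. -/
theorem e_class (j : ℕ) {x y x' y' : ℤ} (hx : (2 : ℤ) ^ (j + 1) ∣ x' - x)
    (hy : (2 : ℤ) ^ (j + 1) ∣ y' - y) (hj : ¬ (2 : ℤ) ^ j ∣ y) :
    (t (x, y)).e = (t (x', y')).e := by
  induction j generalizing x y x' y' with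
  | zero => exact absurd (by simp) hj
  | succ j ih =>
    obtain ⟨A, A', a, rfl, rfl, ha, hA⟩ := mod_split (j + 1) x x' hx
    obtain ⟨B, B', b, rfl, rfl, hb, hB⟩ := mod_split (j + 1) y y' hy
    rcases hb with rfl | rfl
    · simp only [add_zero] at hj ⊢
      rw [e_half, e_half, show (2 * A + a) / 2 = A by omega, show (2 * A' + a) / 2 = A' by omega]
      exact ih hA hB (dvd_help j B hj)
    · rcases ha with rfl | rfl
      · simp only [add_zero]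
        rw [t_01, t_01, sub_e01, sub_e01, lab_eq j A A' B B' hA hB]
      · rw [t_11, t_11, sub_e11, sub_e11, lab_eq j A A' B B' hA hB]

theorem n_class (j : ℕ) {x y x' y' : ℤ} (hx : (2 : ℤ) ^ (j + 1) ∣ x' - x)
    (hy : (2 : ℤ) ^ (j + 1) ∣ y' - y) (hj : ¬ (2 : ℤ) ^ j ∣ x) :
    (t (x, y)).n = (t (x', y')).n := by
  induction j generalizing x y x' y' with
  | zero => exact absurd (by simp) hj
  | succ j ih =>
    obtain ⟨A, A', a, rfl, rfl, ha, hA⟩ := mod_split (j + 1) x x' hx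
    obtain ⟨B, B', b, rfl, rfl, hb, hB⟩ := mod_split (j + 1) y y' hy
    rcases ha with rfl | rfl
    · simp only [add_zero] at hj ⊢
      rw [n_half, n_half, show (2 * B + b) / 2 = B by omega, show (2 * B' + b) / 2 = B' by omega]
      exact ih hA hB (dvd_help j A hj)
    · rcases hb with rfl | rfl
      · simp only [add_zero]
        rw [t_10, t_10, sub_n10, sub_n10, lab_eq j A A' B B' hA hB]
      · rw [t_11, t_11, sub_n11, sub_n11, lab_eq j A A' B B' hA hB]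

theorem w_class (j : ℕ) {x y x' y' : ℤ} (hx : (2 : ℤ) ^ (j + 1) ∣ x' - x)
    (hy : (2 : ℤ) ^ (j + 1) ∣ y' - y) (hj : ¬ (2 : ℤ) ^ j ∣ y) :
    (t (x, y)).w = (t (x', y')).w := by
  have h1 := t_east (x - 1) y
  have h2 := t_east (x' - 1) y'
  rw [sub_add_cancel] at h1 h2
  rw [← h1, ← h2]
  exact e_class j (by simpa using hx) hy hj

theorem s_class (j : ℕ) {x y x' y' : ℤ} (hx : (2 : ℤ) ^ (j + 1) ∣ x' - x)
    (hy : (2 : ℤ) ^ (j + 1) ∣ y' - y) (hj : ¬ (2 : ℤ) ^ j ∣ x) :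
    (t (x, y)).s = (t (x', y')).s := by
  have h1 := t_north x (y - 1)
  have h2 := t_north x' (y' - 1)
  rw [sub_add_cancel] at h1 h2
  rw [← h1, ← h2]
  exact n_class j hx (by simpa using hy) hj

/-- a tile off the lines of level `≥ j` is determined by its class mod `2^(j+1)`. -/
theorem t_face (j : ℕ) {x y x' y' : ℤ} (hx : (2 : ℤ) ^ (j + 1) ∣ x' - x)
    (hy : (2 : ℤ) ^ (j + 1) ∣ y' - y) (hjx : ¬ (2 : ℤ) ^ j ∣ x) (hjy : ¬ (2 : ℤ) ^ j ∣ y) :
    t (x, y) = t (x', y') :=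
  ext_colour _ _ (lab_eq j x x' y y' hx hy) (e_class j hx hy hjy) (w_class j hx hy hjy)
    (n_class j hx hy hjx) (s_class j hx hy hjx)

theorem div_eq_of_bounds {L x q : ℤ} (hL : 0 < L) (h1 : L * q ≤ x) (h2 : x < L * (q + 1)) :
    x / L = q := by
  apply le_antisymm
  · exact Int.lt_add_one_iff.mp (Int.ediv_lt_of_lt_mul hL (by linarith [mul_comm L (q + 1)]))
  · exact Int.le_ediv_of_mul_le hL (by linarith [mul_comm L q])

/-- a tile on a horizontal line of level `≥ M`, off the vertical lines of level `≥ M`, is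
determined by its class mod `2^(M+1)` and the colour of the horizontal segment. -/
theorem t_hline (M : ℕ) {x l x' l' : ℤ} (hx : (2 : ℤ) ^ (M + 1) ∣ x' - x)
    (hl : (2 : ℤ) ∣ l' - l) (hjx : ¬ (2 : ℤ) ^ M ∣ x)
    (hc : (t (x / 2 ^ M, l)).e = (t (x' / 2 ^ M, l')).e) :
    t (x, 2 ^ M * l) = t (x', 2 ^ M * l') := by
  have hL : (0 : ℤ) < 2 ^ M := by positivity
  have hy : (2 : ℤ) ^ (M + 1) ∣ 2 ^ M * l' - 2 ^ M * l := by
    rw [pow_succ, ← mul_sub]; exact mul_dvd_mul_left _ hl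
  have hd : (2 : ℤ) ^ M ∣ x' - x := (pow_dvd_pow 2 (Nat.le_succ M)).trans hx
  have hjx' : ¬ (2 : ℤ) ^ M ∣ x' := fun h => hjx (by
    have := dvd_sub h hd; rwa [sub_sub_cancel] at this)
  have hpred : ∀ z : ℤ, ¬ (2 : ℤ) ^ M ∣ z → (z - 1) / 2 ^ M = z / 2 ^ M := by
    intro z hz
    have h1 := Int.emod_add_mul_ediv z (2 ^ M)
    have h2 := Int.emod_nonneg z hL.ne'
    have h3 := Int.emod_lt_of_pos z hL
    have h4 : z % 2 ^ M ≠ 0 := fun h0 => hz (Int.dvd_of_emod_eq_zero h0)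
    have h5 : 0 < z % 2 ^ M := lt_of_le_of_ne h2 (Ne.symm h4)
    apply div_eq_of_bounds hL
    · linarith
    · linarith
  apply ext_colour
  · exact lab_eq M x x' _ _ hx hy
  · rw [e_line, e_line, hc]
  · have h1 := t_east (x - 1) (2 ^ M * l)
    have h2 := t_east (x' - 1) (2 ^ M * l')
    rw [sub_add_cancel] at h1 h2
    rw [← h1, ← h2, e_line, e_line, hpred x hjx, hpred x' hjx', hc]
  · exact n_class M hx hy hjx
  · exact s_class M hx hy hjx

/-- a tile on a vertical line of level `≥ M`, off the horizontal lines of level `≥ M`. -/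
theorem t_vline (M : ℕ) {k y k' y' : ℤ} (hk : (2 : ℤ) ∣ k' - k)
    (hy : (2 : ℤ) ^ (M + 1) ∣ y' - y) (hjy : ¬ (2 : ℤ) ^ M ∣ y)
    (hc : (t (k, y / 2 ^ M)).n = (t (k', y' / 2 ^ M)).n) :
    t (2 ^ M * k, y) = t (2 ^ M * k', y') := by
  have hL : (0 : ℤ) < 2 ^ M := by positivity
  have hx : (2 : ℤ) ^ (M + 1) ∣ 2 ^ M * k' - 2 ^ M * k := by
    rw [pow_succ, ← mul_sub]; exact mul_dvd_mul_left _ hk
  have hd : (2 : ℤ) ^ M ∣ y' - y := (pow_dvd_pow 2 (Nat.le_succ M)).trans hy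
  have hjy' : ¬ (2 : ℤ) ^ M ∣ y' := fun h => hjy (by
    have := dvd_sub h hd; rwa [sub_sub_cancel] at this)
  have hpred : ∀ z : ℤ, ¬ (2 : ℤ) ^ M ∣ z → (z - 1) / 2 ^ M = z / 2 ^ M := by
    intro z hz
    have h1 := Int.emod_add_mul_ediv z (2 ^ M)
    have h2 := Int.emod_nonneg z hL.ne'
    have h3 := Int.emod_lt_of_pos z hL
    have h4 : z % 2 ^ M ≠ 0 := fun h0 => hz (Int.dvd_of_emod_eq_zero h0)
    have h5 : 0 < z % 2 ^ M := lt_of_le_of_ne h2 (Ne.symm h4)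
    apply div_eq_of_bounds hL
    · linarith
    · linarith
  apply ext_colour
  · exact lab_eq M _ _ y y' hx hy
  · exact e_class M hx hy hjy
  · exact w_class M hx hy hjy
  · rw [n_line, n_line, hc]
  · have h1 := t_north (2 ^ M * k) (y - 1)
    have h2 := t_north (2 ^ M * k') (y' - 1)
    rw [sub_add_cancel] at h1 h2
    rw [← h1, ← h2, n_line, n_line, hpred y hjy, hpred y' hjy', hc]

/-! ### windows -/

/-- `x` is farther than `R` from the multiples of `2^j` -/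
def Far (j : ℕ) (R x : ℤ) : Prop := R < x % 2 ^ j ∧ x % 2 ^ j + R < 2 ^ j

theorem Far.not_dvd {j : ℕ} {R x a : ℤ} (h : Far j R x) (ha : |a| ≤ R) : ¬ (2 : ℤ) ^ j ∣ x + a := by
  rw [abs_le] at ha
  obtain ⟨h1, h2⟩ := h
  intro hd
  have h3 : (2 : ℤ) ^ j ∣ x % 2 ^ j + a := by
    have h4 := Int.emod_add_mul_ediv x (2 ^ j)
    have h5 : x % 2 ^ j + a = (x + a) - 2 ^ j * (x / 2 ^ j) := by linarith
    rw [h5]; exact dvd_sub hd (dvd_mul_right _ _)
  have h6 := Int.le_of_dvd (by linarith) h3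
  linarith

theorem Far.div_add {j : ℕ} {R x a : ℤ} (h : Far j R x) (ha : |a| ≤ R) :
    (x + a) / 2 ^ j = x / 2 ^ j := by
  rw [abs_le] at ha
  obtain ⟨h1, h2⟩ := h
  have h4 := Int.emod_add_mul_ediv x (2 ^ j)
  apply div_eq_of_bounds (by positivity)
  · linarith
  · linarith

theorem Far.congr {j : ℕ} {R x x' : ℤ} (h : Far j R x) (hx : (2 : ℤ) ^ j ∣ x' - x) :
    Far j R x' := by
  have : x' % 2 ^ j = x % 2 ^ j :=
    Int.emod_eq_emod_iff_emod_sub_eq_zero.mpr (Int.emod_eq_zero_of_dvd hx)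
  unfold Far
  rw [this]; exact h

/-- **(i)** farther than `R` from all lines of level `≥ j`, the `R`-window is determined by the
class mod `2^(j+1)`. -/
theorem window_face (j : ℕ) {R : ℤ} {u v : ℤ × ℤ} (hx : (2 : ℤ) ^ (j + 1) ∣ v.1 - u.1)
    (hy : (2 : ℤ) ^ (j + 1) ∣ v.2 - u.2) (h1 : Far j R u.1) (h2 : Far j R u.2) (a b : ℤ)
    (ha : |a| ≤ R) (hb : |b| ≤ R) : t (u.1 + a, u.2 + b) = t (v.1 + a, v.2 + b) :=
  t_face j (by simpa using hx) (by simpa using hy) (h1.not_dvd ha) (h2.not_dvd hb)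

/-- **(ii), horizontal** -/
theorem window_hline (M : ℕ) {R : ℤ} {u v : ℤ × ℤ} (hx : (2 : ℤ) ^ (M + 1) ∣ v.1 - u.1)
    (hy : (2 : ℤ) ^ (M + 1) ∣ v.2 - u.2) (h1 : Far M R u.1)
    (hc : ∀ l : ℤ, |2 ^ M * l - u.2| ≤ R → ∀ l' : ℤ, 2 ^ M * l' - v.2 = 2 ^ M * l - u.2 →
      (t (u.1 / 2 ^ M, l)).e = (t (v.1 / 2 ^ M, l')).e) (a b : ℤ)
    (ha : |a| ≤ R) (hb : |b| ≤ R) : t (u.1 + a, u.2 + b) = t (v.1 + a, v.2 + b) := by
  have hL : (0 : ℤ) < 2 ^ M := by positivity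
  have h1' : Far M R v.1 := h1.congr ((pow_dvd_pow 2 (Nat.le_succ M)).trans hx)
  by_cases hd : (2 : ℤ) ^ M ∣ u.2 + b
  · obtain ⟨l, hl⟩ := hd
    obtain ⟨q, hq⟩ := hy
    have hl' : v.2 + b = 2 ^ M * (l + 2 * q) := by
      have : v.2 = u.2 + 2 ^ (M + 1) * q := by linarith
      rw [this, pow_succ]; linarith
    rw [hl, hl']
    refine t_hline M (by simpa using hx) (by simp) (h1.not_dvd ha) ?_
    rw [h1.div_add ha, h1'.div_add ha]
    refine hc l ?_ _ ?_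
    · rw [show 2 ^ M * l - u.2 = b by linarith]; exact hb
    · linarith
  · exact t_face M (by simpa using hx) (by simpa using hy) (h1.not_dvd ha) hd

/-- **(ii), vertical** -/
theorem window_vline (M : ℕ) {R : ℤ} {u v : ℤ × ℤ} (hx : (2 : ℤ) ^ (M + 1) ∣ v.1 - u.1)
    (hy : (2 : ℤ) ^ (M + 1) ∣ v.2 - u.2) (h2 : Far M R u.2)
    (hc : ∀ k : ℤ, |2 ^ M * k - u.1| ≤ R → ∀ k' : ℤ, 2 ^ M * k' - v.1 = 2 ^ M * k - u.1 →
      (t (k, u.2 / 2 ^ M)).n = (t (k', v.2 / 2 ^ M)).n) (a b : ℤ)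
    (ha : |a| ≤ R) (hb : |b| ≤ R) : t (u.1 + a, u.2 + b) = t (v.1 + a, v.2 + b) := by
  have hL : (0 : ℤ) < 2 ^ M := by positivity
  have h2' : Far M R v.2 := h2.congr ((pow_dvd_pow 2 (Nat.le_succ M)).trans hy)
  by_cases hd : (2 : ℤ) ^ M ∣ u.1 + a
  · obtain ⟨k, hk⟩ := hd
    obtain ⟨q, hq⟩ := hx
    have hk' : v.1 + a = 2 ^ M * (k + 2 * q) := by
      have : v.1 = u.1 + 2 ^ (M + 1) * q := by linarith
      rw [this, pow_succ]; linarith
    rw [hk, hk']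
    refine t_vline M (by simp) (by simpa using hy) (h2.not_dvd hb) ?_
    rw [h2.div_add hb, h2'.div_add hb]
    refine hc k ?_ _ ?_
    · rw [show 2 ^ M * k - u.1 = a by linarith]; exact ha
    · linarith
  · exact t_face M (by simpa using hx) (by simpa using hy) hd (h2.not_dvd hb)

/-! ### contexts: the colour of the nearest segment -/

/-- index of the nearest line of level `≥ M`: `round (y / 2^M)` -/
def nl (M : ℕ) (y : ℤ) : ℤ := (2 * y + 2 ^ M) / 2 ^ (M + 1)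

theorem nl_eq {M : ℕ} {R y l : ℤ} (hR : 2 * R < 2 ^ M) (h : |2 ^ M * l - y| ≤ R) :
    nl M y = l := by
  rw [abs_le] at h
  have h2 : (2 : ℤ) ^ (M + 1) = 2 * 2 ^ M := by ring
  apply div_eq_of_bounds (by positivity)
  · rw [h2]; linarith [h.2]
  · rw [h2]; linarith [h.1]

/-- context near a horizontal line: colour of the nearest horizontal segment of level `≥ M`,
above the cell `⌊x / 2^M⌋`. -/
def ctxH (M : ℕ) (u : ℤ × ℤ) : Col := (t (u.1 / 2 ^ M, nl M u.2)).e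

/-- context near a vertical line: colour of the nearest vertical segment of level `≥ M`,
at the cell `⌊y / 2^M⌋`. -/
def ctxV (M : ℕ) (u : ℤ × ℤ) : Col := (t (nl M u.1, u.2 / 2 ^ M)).n

theorem window_ctxH (M : ℕ) {R : ℤ} {u v : ℤ × ℤ} (hR : 2 * R < 2 ^ M)
    (hx : (2 : ℤ) ^ (M + 1) ∣ v.1 - u.1)
    (hy : (2 : ℤ) ^ (M + 1) ∣ v.2 - u.2) (h1 : Far M R u.1) (hc : ctxH M u = ctxH M v) (a b : ℤ)
    (ha : |a| ≤ R) (hb : |b| ≤ R) : t (u.1 + a, u.2 + b) = t (v.1 + a, v.2 + b) := by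
  refine window_hline M hx hy h1 ?_ a b ha hb
  intro l hl l' hl'
  have e1 := nl_eq hR hl
  have e2 := nl_eq (l := l') (y := v.2) hR (by rw [hl']; exact hl)
  unfold ctxH at hc
  rwa [e1, e2] at hc

theorem window_ctxV (M : ℕ) {R : ℤ} {u v : ℤ × ℤ} (hR : 2 * R < 2 ^ M)
    (hx : (2 : ℤ) ^ (M + 1) ∣ v.1 - u.1)
    (hy : (2 : ℤ) ^ (M + 1) ∣ v.2 - u.2) (h2 : Far M R u.2) (hc : ctxV M u = ctxV M v) (a b : ℤ)
    (ha : |a| ≤ R) (hb : |b| ≤ R) : t (u.1 + a, u.2 + b) = t (v.1 + a, v.2 + b) := by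
  refine window_vline M hx hy h2 ?_ a b ha hb
  intro k hk k' hk'
  have e1 := nl_eq hR hk
  have e2 := nl_eq (l := k') (y := v.1) hR (by rw [hk']; exact hk)
  unfold ctxV at hc
  rwa [e1, e2] at hc

/-- `E` is local of radius `R`: membership of `u` depends only on `t` on the `R`-window at `u`. -/
def IsLoc (R : ℤ) (E : Set (ℤ × ℤ)) : Prop :=
  ∀ u v : ℤ × ℤ, (∀ a b : ℤ, |a| ≤ R → |b| ≤ R → t (u.1 + a, u.2 + b) = t (v.1 + a, v.2 + b)) →
    (u ∈ E ↔ v ∈ E)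

/-- **[T-AM] (i)** -/
theorem IsLoc.face {R : ℤ} {E : Set (ℤ × ℤ)} (hE : IsLoc R E) (j : ℕ) {u v : ℤ × ℤ}
    (hx : (2 : ℤ) ^ (j + 1) ∣ v.1 - u.1) (hy : (2 : ℤ) ^ (j + 1) ∣ v.2 - u.2)
    (h1 : Far j R u.1) (h2 : Far j R u.2) : u ∈ E ↔ v ∈ E :=
  hE u v fun a b ha hb => window_face j hx hy h1 h2 a b ha hb

/-- **[T-AM] (ii), horizontal lines** -/
theorem IsLoc.hline {R : ℤ} {E : Set (ℤ × ℤ)} (hE : IsLoc R E) (M : ℕ) (hR : 2 * R < 2 ^ M)
    {u v : ℤ × ℤ} (hx : (2 : ℤ) ^ (M + 1) ∣ v.1 - u.1) (hy : (2 : ℤ) ^ (M + 1) ∣ v.2 - u.2)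
    (h1 : Far M R u.1) (hc : ctxH M u = ctxH M v) : u ∈ E ↔ v ∈ E :=
  hE u v fun a b ha hb => window_ctxH M hR hx hy h1 hc a b ha hb

/-- **[T-AM] (ii), vertical lines** -/
theorem IsLoc.vline {R : ℤ} {E : Set (ℤ × ℤ)} (hE : IsLoc R E) (M : ℕ) (hR : 2 * R < 2 ^ M)
    {u v : ℤ × ℤ} (hx : (2 : ℤ) ^ (M + 1) ∣ v.1 - u.1) (hy : (2 : ℤ) ^ (M + 1) ∣ v.2 - u.2)
    (h2 : Far M R u.2) (hc : ctxV M u = ctxV M v) : u ∈ E ↔ v ∈ E :=
  hE u v fun a b ha hb => window_ctxV M hR hx hy h2 hc a b ha hb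

end Vale.Agent.P196.Wang
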