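import Vale.Agent.P196.Tile.Basic

/-!
# Local sets: `LS`, freeness, uniform recurrence
-/

namespace Vale.Agent.P196.Wang

open Tile

/-- the windows of radius `R` around `u` and `v` carry the same pattern. -/
def SameWin (R : ℕ) (u v : ℤ × ℤ) : Prop :=
  ∀ a b : ℤ, |a| ≤ R → |b| ≤ R → t (u.1 + a, u.2 + b) = t (v.1 + a, v.2 + b)

theorem SameWin.mono {R R' : ℕ} (h : R' ≤ R) {u v : ℤ × ℤ} (H : SameWin R u v) :
    SameWin R' u v := fun a b ha hb =>
  H a b (ha.trans (by exact_mod_cast h)) (hb.trans (by exact_mod_cast h))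

theorem SameWin.symm {R : ℕ} {u v : ℤ × ℤ} (H : SameWin R u v) : SameWin R v u :=
  fun a b ha hb => (H a b ha hb).symm

theorem SameWin.refl (R : ℕ) (u : ℤ × ℤ) : SameWin R u u := fun _ _ _ _ => rfl

theorem SameWin.trans {R : ℕ} {u v w : ℤ × ℤ} (H : SameWin R u v) (H' : SameWin R v w) :
    SameWin R u w := fun a b ha hb => (H a b ha hb).trans (H' a b ha hb)

/-- shifting the centre of the window. -/
theorem SameWin.shift {R r : ℕ} {u v : ℤ × ℤ} (H : SameWin (R + r) u v) (w : ℤ × ℤ)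
    (h1 : |w.1| ≤ r) (h2 : |w.2| ≤ r) : SameWin R (u + w) (v + w) := by
  intro a b ha hb
  have := H (w.1 + a) (w.2 + b) (by push_cast; linarith [abs_add_le w.1 a])
    (by push_cast; linarith [abs_add_le w.2 b])
  simpa [add_assoc] using this

/-- the local sets: membership of `u` depends only on a window of `t` around `u`. -/
def LS : Set (Set (ℤ × ℤ)) :=
  {E | ∃ R : ℕ, ∀ u v : ℤ × ℤ, SameWin R u v → (u ∈ E ↔ v ∈ E)}

theorem LS_univ : Set.univ ∈ LS := ⟨0, fun _ _ _ => by simp⟩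

theorem LS_empty : (∅ : Set (ℤ × ℤ)) ∈ LS := ⟨0, fun _ _ _ => by simp⟩

theorem LS_compl {E : Set (ℤ × ℤ)} (hE : E ∈ LS) : Eᶜ ∈ LS := by
  obtain ⟨R, hR⟩ := hE
  exact ⟨R, fun u v h => not_congr (hR u v h)⟩

theorem LS_inter {E F : Set (ℤ × ℤ)} (hE : E ∈ LS) (hF : F ∈ LS) : E ∩ F ∈ LS := by
  obtain ⟨R, hR⟩ := hE
  obtain ⟨R', hR'⟩ := hF
  exact ⟨max R R', fun u v h => and_congr (hR u v (h.mono (le_max_left _ _)))
    (hR' u v (h.mono (le_max_right _ _)))⟩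

theorem LS_union {E F : Set (ℤ × ℤ)} (hE : E ∈ LS) (hF : F ∈ LS) : E ∪ F ∈ LS := by
  obtain ⟨R, hR⟩ := hE
  obtain ⟨R', hR'⟩ := hF
  exact ⟨max R R', fun u v h => or_congr (hR u v (h.mono (le_max_left _ _)))
    (hR' u v (h.mono (le_max_right _ _)))⟩

theorem LS_diff {E F : Set (ℤ × ℤ)} (hE : E ∈ LS) (hF : F ∈ LS) : E \ F ∈ LS := by
  rw [Set.diff_eq]; exact LS_inter hE (LS_compl hF)

theorem LS_biInter {ι : Type*} (s : Finset ι) (E : ι → Set (ℤ × ℤ)) (h : ∀ i ∈ s, E i ∈ LS) :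
    (⋂ i ∈ s, E i) ∈ LS := by
  classical
  induction s using Finset.induction_on with
  | empty => simpa using LS_univ
  | insert a s ha ih =>
    rw [Finset.set_biInter_insert]
    exact LS_inter (h a (Finset.mem_insert_self _ _))
      (ih fun i hi => h i (Finset.mem_insert_of_mem hi))

theorem LS_biUnion {ι : Type*} (s : Finset ι) (E : ι → Set (ℤ × ℤ)) (h : ∀ i ∈ s, E i ∈ LS) :
    (⋃ i ∈ s, E i) ∈ LS := by
  classical
  induction s using Finset.induction_on with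
  | empty => simpa using LS_empty
  | insert a s ha ih =>
    rw [Finset.set_biUnion_insert]
    exact LS_union (h a (Finset.mem_insert_self _ _))
      (ih fun i hi => h i (Finset.mem_insert_of_mem hi))

/-- translation: `{u | u - v ∈ E}`. -/
theorem LS_translate {E : Set (ℤ × ℤ)} (hE : E ∈ LS) (w : ℤ × ℤ) : {u | u - w ∈ E} ∈ LS := by
  obtain ⟨R, hR⟩ := hE
  refine ⟨R + max w.1.natAbs w.2.natAbs, fun u v h => hR _ _ ?_⟩
  have := h.shift (-w) (by simp) (by simp)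
  simpa [sub_eq_add_neg] using this

theorem LS_translate_add {E : Set (ℤ × ℤ)} (hE : E ∈ LS) (w : ℤ × ℤ) :
    {u | u + w ∈ E} ∈ LS := by
  simpa using LS_translate hE (-w)

/-- the sets given by one tile are local. -/
theorem LS_tile (w : ℤ × ℤ) (S : Set Tile) : {u | t (u + w) ∈ S} ∈ LS := by
  refine ⟨max w.1.natAbs w.2.natAbs, fun u v h => ?_⟩
  have := h w.1 w.2 (by simp) (by simp)
  show t (u + w) ∈ S ↔ t (v + w) ∈ S
  rw [show u + w = (u.1 + w.1, u.2 + w.2) from rfl, show v + w = (v.1 + w.1, v.2 + w.2) from rfl,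
    this]

theorem LS_tile_zero (S : Set Tile) : {u | t u ∈ S} ∈ LS := by
  simpa using LS_tile 0 S

/-! ### the class modulo `2^N` is local -/

theorem t_recon {x y x' y' : ℤ} (h0 : t (2 * x, 2 * y) = t (2 * x', 2 * y'))
    (h1 : t (2 * x + 1, 2 * y + 1) = t (2 * x' + 1, 2 * y' + 1)) : t (x, y) = t (x', y') := by
  rw [t_00, t_00] at h0
  rw [t_11, t_11] at h1
  have hb : (t (x, y)).bare = (t (x', y')).bare := by simpa [sub] using h0
  have hl : (t (x, y)).lab = (t (x', y')).lab := by simpa [sub] using h1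
  revert hb hl
  generalize t (x, y) = τ
  generalize t (x', y') = τ'
  intro hb hl
  cases τ <;> cases τ' <;> simp_all [bare, lab]

/-- radius of the window which determines the class modulo `2^N` -/
def rad : ℕ → ℕ
  | 0 => 0
  | N + 1 => 2 * rad N + 2

theorem class_local (N : ℕ) : ∀ u v : ℤ × ℤ, SameWin (rad N) u v →
    u.1 % 2 ^ N = v.1 % 2 ^ N ∧ u.2 % 2 ^ N = v.2 % 2 ^ N := by
  induction N with
  | zero => intro u v _; simp [Int.emod_one]
  | succ N ih =>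
    intro u v h
    have hR : ((rad (N + 1) : ℕ) : ℤ) = 2 * (rad N : ℤ) + 2 := by
      simp [rad]
    have hlab : (t u).lab = (t v).lab := by
      have := h 0 0 (by rw [hR, abs_zero]; positivity) (by rw [hR, abs_zero]; positivity)
      simp only [add_zero] at this
      rw [show u = (u.1, u.2) from rfl, show v = (v.1, v.2) from rfl, this]
    rw [t_lab', t_lab', Prod.mk.injEq, decide_eq_decide, decide_eq_decide] at hlab
    have p1 : u.1 % 2 = v.1 % 2 := by omega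
    have p2 : u.2 % 2 = v.2 % 2 := by omega
    have key : SameWin (rad N) (u.1 / 2, u.2 / 2) (v.1 / 2, v.2 / 2) := by
      intro a b ha hb
      rw [abs_le] at ha hb
      apply t_recon
      · have := h (2 * a - u.1 % 2) (2 * b - u.2 % 2) (by rw [hR, abs_le]; constructor <;> omega)
          (by rw [hR, abs_le]; constructor <;> omega)
        have e1 : 2 * (u.1 / 2 + a) = u.1 + (2 * a - u.1 % 2) := by omega
        have e2 : 2 * (u.2 / 2 + b) = u.2 + (2 * b - u.2 % 2) := by omega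
        have e3 : 2 * (v.1 / 2 + a) = v.1 + (2 * a - u.1 % 2) := by omega
        have e4 : 2 * (v.2 / 2 + b) = v.2 + (2 * b - u.2 % 2) := by omega
        simp only [e1, e2, e3, e4, this]
      · have := h (2 * a - u.1 % 2 + 1) (2 * b - u.2 % 2 + 1)
          (by rw [hR, abs_le]; constructor <;> omega)
          (by rw [hR, abs_le]; constructor <;> omega)
        have e1 : 2 * (u.1 / 2 + a) + 1 = u.1 + (2 * a - u.1 % 2 + 1) := by omega
        have e2 : 2 * (u.2 / 2 + b) + 1 = u.2 + (2 * b - u.2 % 2 + 1) := by omega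
        have e3 : 2 * (v.1 / 2 + a) + 1 = v.1 + (2 * a - u.1 % 2 + 1) := by omega
        have e4 : 2 * (v.2 / 2 + b) + 1 = v.2 + (2 * b - u.2 % 2 + 1) := by omega
        simp only [e1, e2, e3, e4, this]
    obtain ⟨i1, i2⟩ := ih _ _ key
    have aux : ∀ x y : ℤ, x % 2 = y % 2 → x / 2 % 2 ^ N = y / 2 % 2 ^ N →
        x % 2 ^ (N + 1) = y % 2 ^ (N + 1) := by
      intro x y h1 h2
      have h3 : (2 : ℤ) ^ N ∣ x / 2 - y / 2 := Int.ModEq.dvd (Int.ModEq.symm h2)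
      obtain ⟨c, hc⟩ := h3
      have h4 : x - y = 2 ^ (N + 1) * c := by
        have : x - y = 2 * (x / 2 - y / 2) := by omega
        rw [this, hc]; ring
      exact (Int.ModEq.symm ((Int.modEq_iff_dvd).2 ⟨c, h4⟩))
    exact ⟨aux _ _ p1 i1, aux _ _ p2 i2⟩

/-- residue classes modulo `2^N` are local. -/
theorem LS_class (N : ℕ) (c d : ℤ) :
    {u : ℤ × ℤ | u.1 % 2 ^ N = c ∧ u.2 % 2 ^ N = d} ∈ LS := by
  refine ⟨rad N, fun u v h => ?_⟩
  obtain ⟨h1, h2⟩ := class_local N u v h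
  simp only [Set.mem_setOf_eq, h1, h2]

/-- more generally every set of residue classes modulo `2^N`. -/
theorem LS_classes (N : ℕ) (S : Set (ℤ × ℤ)) :
    {u : ℤ × ℤ | (u.1 % 2 ^ N, u.2 % 2 ^ N) ∈ S} ∈ LS := by
  refine ⟨rad N, fun u v h => ?_⟩
  obtain ⟨h1, h2⟩ := class_local N u v h
  simp only [Set.mem_setOf_eq, h1, h2]

/-- **FREE**: for `v ≠ 0` finitely many local sets `E` with `E ∩ (E + v) = ∅` cover. -/
theorem LS_free (v : ℤ × ℤ) (hv : v ≠ 0) :
    ∃ F : Finset (Set (ℤ × ℤ)), (∀ E ∈ F, E ∈ LS) ∧ (∀ u, ∃ E ∈ F, u ∈ E) ∧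
      ∀ E ∈ F, Disjoint E {u | u - v ∈ E} := by
  classical
  set N := v.1.natAbs + v.2.natAbs with hN
  have hp : (0 : ℤ) < 2 ^ N := by positivity
  have hlt : ((v.1.natAbs + v.2.natAbs : ℕ) : ℤ) < 2 ^ N := by
    have : N < 2 ^ N := Nat.lt_two_pow_self
    exact_mod_cast this
  let S : Finset (ℤ × ℤ) := (Finset.Ico (0 : ℤ) (2 ^ N)) ×ˢ (Finset.Ico (0 : ℤ) (2 ^ N))
  refine ⟨S.image fun c => {u : ℤ × ℤ | u.1 % 2 ^ N = c.1 ∧ u.2 % 2 ^ N = c.2}, ?_, ?_, ?_⟩
  · intro E hE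
    obtain ⟨c, -, rfl⟩ := Finset.mem_image.1 hE
    exact LS_class N c.1 c.2
  · intro u
    refine ⟨_, Finset.mem_image_of_mem _ (a := (u.1 % 2 ^ N, u.2 % 2 ^ N)) ?_, ?_⟩
    · simp only [S, Finset.mem_product, Finset.mem_Ico]
      exact ⟨⟨Int.emod_nonneg _ hp.ne', Int.emod_lt_of_pos _ hp⟩,
        ⟨Int.emod_nonneg _ hp.ne', Int.emod_lt_of_pos _ hp⟩⟩
    · simp
  · intro E hE
    obtain ⟨c, -, rfl⟩ := Finset.mem_image.1 hE
    rw [Set.disjoint_left]
    rintro u ⟨h1, h2⟩ ⟨h3, h4⟩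
    apply hv
    have aux : ∀ x w : ℤ, x % 2 ^ N = (x - w) % 2 ^ N → |w| < 2 ^ N → w = 0 := by
      intro x w h hw
      have : (2 : ℤ) ^ N ∣ w := by
        have := Int.ModEq.dvd (Int.ModEq.symm h)
        simpa using this
      exact Int.eq_zero_of_abs_lt_dvd this hw
    have e1 := aux u.1 v.1 (by rw [h1]; exact h3.symm) (by
      rw [Int.abs_eq_natAbs]; push_cast at hlt; push_cast; linarith [abs_nonneg v.2])
    have e2 := aux u.2 v.2 (by rw [h2]; exact h4.symm) (by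
      rw [Int.abs_eq_natAbs]; push_cast at hlt; push_cast; linarith [abs_nonneg v.1])
    exact Prod.ext e1 e2

/-! ### uniform recurrence -/

theorem t_sub (x y : ℤ) (p q : Bool) :
    t (2 * x + (p.toNat : ℤ), 2 * y + (q.toNat : ℤ)) = (t (x, y)).sub p q := by
  cases p <;> cases q <;> simp [t_00, t_01, t_10, t_11]

set_option maxRecDepth 100000 in
theorem prim5 : ∀ τ : Tile, ∃ a1 b1 a2 b2 a3 b3 a4 b4 a5 b5 : Bool,
    (((((Tile.cc (false, false)).sub a1 b1).sub a2 b2).sub a3 b3).sub a4 b4).sub a5 b5 = τ := by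
  decide +kernel

theorem sub_sub_cc (τ : Tile) (a b : Bool) : (τ.sub a b).sub true true = .cc (a, b) := by
  cases a <;> cases b <;> rfl

/-- every tile occurs in every block of level `7`. -/
theorem t_prim (τ : Tile) (x y : ℤ) :
    ∃ a b : ℤ, 0 ≤ a ∧ a < 2 ^ 7 ∧ 0 ≤ b ∧ b < 2 ^ 7 ∧
      t (2 ^ 7 * x + a, 2 ^ 7 * y + b) = τ := by
  obtain ⟨a1, b1, a2, b2, a3, b3, a4, b4, a5, b5, h⟩ := prim5 τ
  have hb : ∀ p : Bool, 0 ≤ (p.toNat : ℤ) ∧ (p.toNat : ℤ) ≤ 1 := by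
    intro p; cases p <;> simp
  rw [← sub_sub_cc (t (x, y)) false false, ← t_sub, ← t_sub, ← t_sub, ← t_sub, ← t_sub,
    ← t_sub, ← t_sub] at h
  have c1 := hb a1; have c2 := hb a2; have c3 := hb a3; have c4 := hb a4; have c5 := hb a5
  have d1 := hb b1; have d2 := hb b2; have d3 := hb b3; have d4 := hb b4; have d5 := hb b5
  refine ⟨2 * (2 * (2 * (2 * (2 * 1 + (a1.toNat : ℤ)) + (a2.toNat : ℤ)) + (a3.toNat : ℤ)) +
      (a4.toNat : ℤ)) + (a5.toNat : ℤ),
    2 * (2 * (2 * (2 * (2 * 1 + (b1.toNat : ℤ)) + (b2.toNat : ℤ)) + (b3.toNat : ℤ)) +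
      (b4.toNat : ℤ)) + (b5.toNat : ℤ), by omega, by omega, by omega, by omega, ?_⟩
  rw [← h]
  congr 2
  · simp; ring
  · simp; ring

/-- **REC** (uniform recurrence): every nonempty local set is syndetic. -/
theorem LS_rec (E : Set (ℤ × ℤ)) (hE : E ∈ LS) (hne : E.Nonempty) :
    ∃ V : Finset (ℤ × ℤ), ∀ u : ℤ × ℤ, ∃ v ∈ V, u + v ∈ E := by
  classical
  obtain ⟨R, hR⟩ := hE
  obtain ⟨u0, hu0⟩ := hne
  set N := R + 1 with hN
  have hp : (0 : ℤ) < 2 ^ N := by positivity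
  have hRN : (R : ℤ) + 1 < 2 ^ N := by
    have : N < 2 ^ N := Nat.lt_two_pow_self
    have h2 : R + 1 < 2 ^ N := by omega
    exact_mod_cast h2
  -- corner of the level `N + 1` near `u0`
  have hcor : ∀ x : ℤ, ∃ X d : ℤ, x = 2 ^ (N + 1) * X + d ∧ |d| ≤ 2 ^ N := by
    intro x
    have h2 : (2 : ℤ) ^ (N + 1) = 2 * 2 ^ N := by ring
    have hm := Int.emod_nonneg x (show (2 : ℤ) ^ (N + 1) ≠ 0 by positivity)
    have hl := Int.emod_lt_of_pos x (show (0 : ℤ) < 2 ^ (N + 1) by positivity)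
    have hd := Int.mul_ediv_add_emod x (2 ^ (N + 1))
    by_cases h : x % 2 ^ (N + 1) ≤ 2 ^ N
    · exact ⟨x / 2 ^ (N + 1), x % 2 ^ (N + 1), by linarith, by rw [abs_of_nonneg hm]; exact h⟩
    · refine ⟨x / 2 ^ (N + 1) + 1, x % 2 ^ (N + 1) - 2 ^ (N + 1), by linarith, ?_⟩
      rw [abs_le]; constructor <;> linarith
  obtain ⟨X, d, hX, hd⟩ := hcor u0.1
  obtain ⟨Y, e, hY, he⟩ := hcor u0.2
  set B : ℤ := 2 ^ (N + 1) * 2 ^ 7 + 2 ^ N with hB
  refine ⟨(Finset.Icc (-B) B) ×ˢ (Finset.Icc (-B) B), fun u => ?_⟩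
  set M : ℤ := 2 ^ (N + 1) * 2 ^ 7 with hM
  have hMpos : 0 < M := by positivity
  obtain ⟨a, b, ha0, ha1, hb0, hb1, hab⟩ := t_prim (t (X, Y)) (u.1 / M) (u.2 / M)
  set p : ℤ × ℤ := (2 ^ (N + 1) * (2 ^ 7 * (u.1 / M) + a) + d,
    2 ^ (N + 1) * (2 ^ 7 * (u.2 / M) + b) + e) with hpdef
  have hpE : p ∈ E := by
    refine (hR u0 p ?_).1 hu0
    intro a' b' ha' hb'
    have h2 : (2 : ℤ) ^ (N + 1) = 2 * 2 ^ N := by ring
    have hlt : ∀ d a' : ℤ, |d| ≤ 2 ^ N → |a'| ≤ R → |d + a'| < 2 ^ (N + 1) := by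
      intro d a' hd ha'
      have := abs_add_le d a'
      rw [h2]; linarith
    have := near (N + 1) hab.symm (d + a') (e + b') (hlt d a' hd ha') (hlt e b' he hb')
    rw [hpdef, hX, hY]
    simp only [add_assoc] at this ⊢
    exact this
  have hbound : ∀ x a d : ℤ, 0 ≤ a → a < 2 ^ 7 → |d| ≤ 2 ^ N →
      -B ≤ 2 ^ (N + 1) * (2 ^ 7 * (x / M) + a) + d - x ∧
        2 ^ (N + 1) * (2 ^ 7 * (x / M) + a) + d - x ≤ B := by
    intro x a d ha0 ha1 hd
    have h1 := Int.mul_ediv_add_emod x M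
    have h2 := Int.emod_nonneg x hMpos.ne'
    have h3 := Int.emod_lt_of_pos x hMpos
    have h4 : 2 ^ (N + 1) * (2 ^ 7 * (x / M) + a) + d - x =
        2 ^ (N + 1) * a + d - x % M := by
      rw [hM] at h1 ⊢; linarith
    rw [h4]
    rw [abs_le] at hd
    have h5 : 0 ≤ 2 ^ (N + 1) * a := by positivity
    have h6 : 2 ^ (N + 1) * a ≤ M := by
      rw [hM]; exact mul_le_mul_of_nonneg_left ha1.le (by positivity)
    rw [hB]
    constructor <;> linarith
  refine ⟨p - u, ?_, by simpa using hpE⟩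
  rw [Finset.mem_product, Finset.mem_Icc, Finset.mem_Icc]
  exact ⟨hbound u.1 a d ha0 ha1 hd, hbound u.2 b e hb0 hb1 he⟩

end Vale.Agent.P196.Wang
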