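import Vale.Agent.P196.Tile.Local

/-!
# Classical rigidity: every Wang-legal patch looks like `t` deep inside (`T-lang`)
-/

namespace Vale.Agent.P196.Wang

open Tile

/-- `P` obeys the Wang rules on the box `[x₁, x₂] × [y₁, y₂]`. -/
def LegalBox (P : ℤ × ℤ → Tile) (x₁ x₂ y₁ y₂ : ℤ) : Prop :=
  (∀ x y, x₁ ≤ x → x + 1 ≤ x₂ → y₁ ≤ y → y ≤ y₂ → (P (x, y)).east = (P (x + 1, y)).west) ∧
  (∀ x y, x₁ ≤ x → x ≤ x₂ → y₁ ≤ y → y + 1 ≤ y₂ → (P (x, y)).north = (P (x, y + 1)).south)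

/-- `P` is legal and aligned: the labels are the parities. -/
def AlignedBox (P : ℤ × ℤ → Tile) (x₁ x₂ y₁ y₂ : ℤ) : Prop :=
  LegalBox P x₁ x₂ y₁ y₂ ∧ ∀ x y, x₁ ≤ x → x ≤ x₂ → y₁ ≤ y → y ≤ y₂ →
    (P (x, y)).lab = (decide (x % 2 = 1), decide (y % 2 = 1))

theorem LegalBox.mono {P : ℤ × ℤ → Tile} {x₁ x₂ y₁ y₂ x₁' x₂' y₁' y₂' : ℤ}
    (h : LegalBox P x₁ x₂ y₁ y₂) (h1 : x₁ ≤ x₁') (h2 : x₂' ≤ x₂) (h3 : y₁ ≤ y₁')
    (h4 : y₂' ≤ y₂) : LegalBox P x₁' x₂' y₁' y₂' :=
  ⟨fun x y a b c d => h.1 x y (h1.trans a) (b.trans h2) (h3.trans c) (d.trans h4),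
   fun x y a b c d => h.2 x y (h1.trans a) (b.trans h2) (h3.trans c) (d.trans h4)⟩

theorem lab_of_legal {P : ℤ × ℤ → Tile} {x₁ x₂ y₁ y₂ : ℤ} (h : LegalBox P x₁ x₂ y₁ y₂)
    (hx : x₁ ≤ x₂) (hy : y₁ ≤ y₂) : ∃ p q : ℤ, 0 ≤ p ∧ p ≤ 1 ∧ 0 ≤ q ∧ q ≤ 1 ∧
      ∀ x y, x₁ ≤ x → x ≤ x₂ → y₁ ≤ y → y ≤ y₂ →
        (P (x, y)).lab = (decide ((x + p) % 2 = 1), decide ((y + q) % 2 = 1)) := by
  have key : ∀ (b : Bool) (z : ℤ), ∃ p : ℤ, 0 ≤ p ∧ p ≤ 1 ∧ b = decide ((z + p) % 2 = 1) := by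
    intro b z
    rcases Int.emod_two_eq_zero_or_one z with hz | hz <;> cases b
    · exact ⟨0, by omega, by omega, by symm; rw [decide_eq_false_iff_not]; omega⟩
    · exact ⟨1, by omega, by omega, by symm; rw [decide_eq_true_eq]; omega⟩
    · exact ⟨1, by omega, by omega, by symm; rw [decide_eq_false_iff_not]; omega⟩
    · exact ⟨0, by omega, by omega, by symm; rw [decide_eq_true_eq]; omega⟩
  have step : ∀ z : ℤ, decide ((z + 1) % 2 = 1) = !decide (z % 2 = 1) := by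
    intro z; rw [← decide_not, decide_eq_decide]; omega
  obtain ⟨p, hp0, hp1, hp⟩ := key (P (x₁, y₁)).lab.1 x₁
  obtain ⟨q, hq0, hq1, hq⟩ := key (P (x₁, y₁)).lab.2 y₁
  refine ⟨p, q, hp0, hp1, hq0, hq1, ?_⟩
  -- first column
  have hcol : ∀ y, y₁ ≤ y → y ≤ y₂ →
      (P (x₁, y)).lab = (decide ((x₁ + p) % 2 = 1), decide ((y + q) % 2 = 1)) := by
    intro y hy1
    induction y, hy1 using Int.leInduction with
    | base => intro _; rw [← hp, ← hq]
    | succ y hy1 ih =>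
      intro hy2
      have h1 := ih (by omega)
      have h2 := congrArg Prod.snd (h.2 x₁ y le_rfl hx hy1 hy2)
      simp only [north, south] at h2
      rw [h1, Prod.ext_iff] at h2
      simp only at h2
      refine Prod.ext h2.1.symm ?_
      simp only
      rw [show y + 1 + q = (y + q) + 1 by ring, step, h2.2, Bool.not_not]
  intro x y hx1
  induction x, hx1 using Int.leInduction with
  | base => intro _ hy1 hy2; exact hcol y hy1 hy2
  | succ x hx1 ih =>
    intro hx2 hy1 hy2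
    have h1 := ih (by omega) hy1 hy2
    have h2 := congrArg Prod.snd (h.1 x y hx1 hx2 hy1 hy2)
    simp only [east, west] at h2
    rw [h1, Prod.ext_iff] at h2
    simp only at h2
    refine Prod.ext ?_ h2.2.symm
    simp only
    rw [show x + 1 + p = (x + p) + 1 by ring, step, h2.1, Bool.not_not]

/-- the tile with given bare tile and label (if compatible). -/
def mk : Bare → Bool × Bool → Tile
  | .cross k, (true, true) => .cc k
  | .harm c x o, (true, false) => .hh c x o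
  | .varm c y o, (false, true) => .vv c y o
  | b, _ => .ee b

/-- the class of a cross. -/
def kap : Tile → K
  | .cc k => k
  | _ => (false, false)

theorem mk_ok : ∀ (b : Bare) (k : K), (k.2 = true → b.east.2 = k.1) →
    (k.2 = true → b.west.2 = !k.1) → (k.1 = true → b.north.2 = k.2) →
    (k.1 = true → b.south.2 = !k.2) → (mk b k).lab = k ∧ (mk b k).bare = b := by decide

theorem hh_facts : ∀ E : Tile, E.lab = (true, false) →
    E = .hh E.w.1 E.n.1.1 (if E.n.1.2 then none else some E.w.2) ∧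
    (E.n.1.2 = true → E.w.2 = E.n.1.1) ∧ E.n.2 = false ∧
    E.s = ((E.n.1.1, !E.n.1.2), true) ∧ E.e = E.w := by decide

theorem vv_facts : ∀ V : Tile, V.lab = (false, true) →
    V = .vv V.s.1 V.e.1.2 (if V.e.1.1 then none else some V.s.2) ∧
    (V.e.1.1 = true → V.s.2 = V.e.1.2) ∧ V.e.2 = false ∧
    V.w = ((!V.e.1.1, V.e.1.2), true) ∧ V.n = V.s := by decide

theorem cc_facts : ∀ C : Tile, C.lab = (true, true) →
    C = .cc (kap C) ∧ C.e = (kap C, true) ∧ C.w = (kap C, false) ∧ C.n = (kap C, true) ∧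
      C.s = (kap C, false) := by decide

theorem ee_facts : ∀ C : Tile, C.lab = (false, false) → C = .ee C.bare := by decide

/-- the `3 × 3` neighbourhood of `2u` in terms of the tile at `u`. -/
def nb (τ : Tile) (a b : ℤ) : Tile :=
  if a = -1 then
    if b = -1 then .cc (!τ.lab.1, !τ.lab.2) else if b = 0 then subW τ else
      .cc (!τ.lab.1, τ.lab.2)
  else if a = 0 then
    if b = -1 then subS τ else if b = 0 then τ.sub false false else τ.sub false true
  else
    if b = -1 then .cc (τ.lab.1, !τ.lab.2) else if b = 0 then τ.sub true false else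
      τ.sub true true

theorem t_nb (x y a b : ℤ) (ha : |a| ≤ 1) (hb : |b| ≤ 1) :
    t (2 * x + a, 2 * y + b) = nb (t (x, y)) a b := by
  rw [abs_le] at ha hb
  have ha' : a = -1 ∨ a = 0 ∨ a = 1 := by omega
  have hb' : b = -1 ∨ b = 0 ∨ b = 1 := by omega
  rcases ha' with rfl | rfl | rfl <;> rcases hb' with rfl | rfl | rfl <;>
    simp [nb, add_zero, ← sub_eq_add_neg, t_m0, t_0m, t_mm, t_m1, t_1m, t_00, t_10, t_01, t_11]

/-- desubstitution -/
def desub (P : ℤ × ℤ → Tile) : ℤ × ℤ → Tile :=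
  fun u => mk (P (2 * u.1, 2 * u.2)).bare (kap (P (2 * u.1 + 1, 2 * u.2 + 1)))

section

variable {P : ℤ × ℤ → Tile} {x₁ x₂ y₁ y₂ : ℤ}

theorem desub_facts (h : AlignedBox P x₁ x₂ y₁ y₂) (X Y : ℤ) (h1 : x₁ + 1 ≤ 2 * X)
    (h2 : 2 * X + 1 ≤ x₂) (h3 : y₁ + 1 ≤ 2 * Y) (h4 : 2 * Y + 1 ≤ y₂) :
    (desub P (X, Y)).lab = kap (P (2 * X + 1, 2 * Y + 1)) ∧
    (desub P (X, Y)).bare = (P (2 * X, 2 * Y)).bare ∧
    ∀ a b : ℤ, |a| ≤ 1 → |b| ≤ 1 → P (2 * X + a, 2 * Y + b) = nb (desub P (X, Y)) a b := by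
  obtain ⟨⟨hH, hV⟩, hL⟩ := h
  -- the nine tiles
  have l00 := hL (2 * X) (2 * Y) (by omega) (by omega) (by omega) (by omega)
  have l10 := hL (2 * X + 1) (2 * Y) (by omega) (by omega) (by omega) (by omega)
  have l01 := hL (2 * X) (2 * Y + 1) (by omega) (by omega) (by omega) (by omega)
  have l11 := hL (2 * X + 1) (2 * Y + 1) (by omega) (by omega) (by omega) (by omega)
  have lm0 := hL (2 * X - 1) (2 * Y) (by omega) (by omega) (by omega) (by omega)
  have l0m := hL (2 * X) (2 * Y - 1) (by omega) (by omega) (by omega) (by omega)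
  have lm1 := hL (2 * X - 1) (2 * Y + 1) (by omega) (by omega) (by omega) (by omega)
  have l1m := hL (2 * X + 1) (2 * Y - 1) (by omega) (by omega) (by omega) (by omega)
  have lmm := hL (2 * X - 1) (2 * Y - 1) (by omega) (by omega) (by omega) (by omega)
  have d0 : ∀ z : ℤ, decide (2 * z % 2 = 1) = false := by intro z; simp
  have d1 : ∀ z : ℤ, decide ((2 * z + 1) % 2 = 1) = true := by
    intro z; rw [decide_eq_true_eq]; omega
  have dm : ∀ z : ℤ, decide ((2 * z - 1) % 2 = 1) = true := by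
    intro z; rw [decide_eq_true_eq]; omega
  rw [d0, d0] at l00
  rw [d1, d0] at l10
  rw [d0, d1] at l01
  rw [d1, d1] at l11
  rw [dm, d0] at lm0
  rw [d0, dm] at l0m
  rw [dm, d1] at lm1
  rw [d1, dm] at l1m
  rw [dm, dm] at lmm
  -- the matching rules
  have fst_h : ∀ x y, x₁ ≤ x → x + 1 ≤ x₂ → y₁ ≤ y → y ≤ y₂ →
      (P (x, y)).e = (P (x + 1, y)).w := fun x y a b c d => congrArg Prod.fst (hH x y a b c d)
  have fst_v : ∀ x y, x₁ ≤ x → x ≤ x₂ → y₁ ≤ y → y + 1 ≤ y₂ →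
      (P (x, y)).n = (P (x, y + 1)).s := fun x y a b c d => congrArg Prod.fst (hV x y a b c d)
  have mE := fst_h (2 * X) (2 * Y) (by omega) (by omega) (by omega) (by omega)
  have mEn := fst_v (2 * X + 1) (2 * Y) (by omega) (by omega) (by omega) (by omega)
  have mEs := fst_v (2 * X + 1) (2 * Y - 1) (by omega) (by omega) (by omega) (by omega)
  have mN := fst_v (2 * X) (2 * Y) (by omega) (by omega) (by omega) (by omega)
  have mNe := fst_h (2 * X) (2 * Y + 1) (by omega) (by omega) (by omega) (by omega)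
  have mNw := fst_h (2 * X - 1) (2 * Y + 1) (by omega) (by omega) (by omega) (by omega)
  have mW := fst_h (2 * X - 1) (2 * Y) (by omega) (by omega) (by omega) (by omega)
  have mWn := fst_v (2 * X - 1) (2 * Y) (by omega) (by omega) (by omega) (by omega)
  have mWs := fst_v (2 * X - 1) (2 * Y - 1) (by omega) (by omega) (by omega) (by omega)
  have mS := fst_v (2 * X) (2 * Y - 1) (by omega) (by omega) (by omega) (by omega)
  have mSe := fst_h (2 * X) (2 * Y - 1) (by omega) (by omega) (by omega) (by omega)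
  rw [show 2 * Y - 1 + 1 = 2 * Y by ring] at mEs mWs mS
  rw [show 2 * X - 1 + 1 = 2 * X by ring] at mNw mW
  obtain ⟨fE1, fE2, -, fE4, fE5⟩ := hh_facts _ l10
  obtain ⟨fW1, fW2, -, fW4, fW5⟩ := hh_facts _ lm0
  obtain ⟨fN1, fN2, -, fN4, fN5⟩ := vv_facts _ l01
  obtain ⟨fS1, fS2, -, fS4, fS5⟩ := vv_facts _ l0m
  obtain ⟨gNE, gNEe, gNEw, gNEn, gNEs⟩ := cc_facts _ l11
  obtain ⟨gNW, gNWe, gNWw, gNWn, gNWs⟩ := cc_facts _ lm1
  obtain ⟨gSE, gSEe, gSEw, gSEn, gSEs⟩ := cc_facts _ l1m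
  obtain ⟨gSW, gSWe, gSWw, gSWn, gSWs⟩ := cc_facts _ lmm
  have gC := ee_facts _ l00
  set k := kap (P (2 * X + 1, 2 * Y + 1)) with hk
  set b := (P (2 * X, 2 * Y)).bare with hb
  -- classes of the crosses
  rw [gNEs] at mEn
  rw [gNEw] at mNe
  rw [gSEn, fE4, mEn] at mEs
  have kSE : kap (P (2 * X + 1, 2 * Y - 1)) = (k.1, !k.2) := congrArg Prod.fst mEs
  rw [gNWe, fN4, mNe] at mNw
  have kNW : kap (P (2 * X - 1, 2 * Y + 1)) = (!k.1, k.2) := congrArg Prod.fst mNw
  rw [gNWs, kNW] at mWn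
  rw [gSEw, kSE] at mSe
  rw [gSWn, fW4, mWn] at mWs
  have kSW : kap (P (2 * X - 1, 2 * Y - 1)) = (!k.1, !k.2) := congrArg Prod.fst mWs
  rw [mEn] at fE1 fE2
  rw [mNe] at fN1 fN2
  rw [mWn] at fW1 fW2
  rw [mSe] at fS1 fS2
  simp only at fE1 fE2 fN1 fN2 fW1 fW2 fS1 fS2
  rw [← fW5, mW] at fW1 fW2
  rw [← fS5, mS] at fS1 fS2
  rw [← mE] at fE1 fE2
  rw [← mN] at fN1 fN2
  have eb : (P (2 * X, 2 * Y)).e = b.east := rfl
  have nb' : (P (2 * X, 2 * Y)).n = b.north := rfl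
  have wb : (P (2 * X, 2 * Y)).w = b.west := rfl
  have sb : (P (2 * X, 2 * Y)).s = b.south := rfl
  rw [eb] at fE1 fE2
  rw [nb'] at fN1 fN2
  rw [wb] at fW1 fW2
  rw [sb] at fS1 fS2
  obtain ⟨hlab, hbare⟩ := mk_ok b k fE2 fW2 fN2 fS2
  have hdef : desub P (X, Y) = mk b k := rfl
  refine ⟨hlab, hbare, ?_⟩
  rw [hdef]
  have me : (mk b k).e = b.east := by unfold Tile.e; rw [hbare]
  have mn : (mk b k).n = b.north := by unfold Tile.n; rw [hbare]
  have mw : (mk b k).w = b.west := by unfold Tile.w; rw [hbare]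
  have ms : (mk b k).s = b.south := by unfold Tile.s; rw [hbare]
  intro a c ha hc
  rw [abs_le] at ha hc
  have ha' : a = -1 ∨ a = 0 ∨ a = 1 := by omega
  have hc' : c = -1 ∨ c = 0 ∨ c = 1 := by omega
  rcases ha' with rfl | rfl | rfl <;> rcases hc' with rfl | rfl | rfl
  · rw [← sub_eq_add_neg, ← sub_eq_add_neg, gSW, kSW]; simp [nb, hlab]
  · rw [← sub_eq_add_neg, add_zero, fW1]; simp [nb, subW, hlab, mw]
  · rw [← sub_eq_add_neg, gNW, kNW]; simp [nb, hlab]
  · rw [← sub_eq_add_neg, add_zero, fS1]; simp [nb, subS, hlab, ms]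
  · rw [add_zero, add_zero, gC]; simp [nb, sub, hbare]
  · rw [add_zero, fN1]; simp [nb, sub, hlab, mn]
  · rw [← sub_eq_add_neg, gSE, kSE]; simp [nb, hlab]
  · rw [add_zero, fE1]; simp [nb, sub, hlab, me]
  · rw [gNE]; simp [nb, sub, hlab]

theorem desub_legal (h : AlignedBox P x₁ x₂ y₁ y₂) {X₁ X₂ Y₁ Y₂ : ℤ} (h1 : x₁ + 1 ≤ 2 * X₁)
    (h2 : 2 * X₂ + 1 ≤ x₂) (h3 : y₁ + 1 ≤ 2 * Y₁) (h4 : 2 * Y₂ + 1 ≤ y₂) :
    LegalBox (desub P) X₁ X₂ Y₁ Y₂ := by
  constructor
  · intro X Y a b c d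
    obtain ⟨p1, p2, p3⟩ := desub_facts h X Y (by omega) (by omega) (by omega) (by omega)
    obtain ⟨q1, q2, q3⟩ := desub_facts h (X + 1) Y (by omega) (by omega) (by omega) (by omega)
    have e1 : (desub P (X, Y)).e = (P (2 * X, 2 * Y)).e := by unfold Tile.e; rw [p2]
    have e2 : (desub P (X + 1, Y)).w = (P (2 * (X + 1), 2 * Y)).w := by unfold Tile.w; rw [q2]
    have m1 := congrArg Prod.fst (h.1.1 (2 * X) (2 * Y) (by omega) (by omega) (by omega) (by omega))
    have m2 := congrArg Prod.fst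
      (h.1.1 (2 * X + 1) (2 * Y) (by omega) (by omega) (by omega) (by omega))
    simp only [east, west] at m1 m2
    have l10 := h.2 (2 * X + 1) (2 * Y) (by omega) (by omega) (by omega) (by omega)
    rw [show decide ((2 * X + 1) % 2 = 1) = true by rw [decide_eq_true_eq]; omega,
      show decide (2 * Y % 2 = 1) = false by simp] at l10
    obtain ⟨-, -, -, -, f5⟩ := hh_facts _ l10
    have r1 := p3 1 1 (by norm_num) (by norm_num)
    have r2 := q3 (-1) 1 (by norm_num) (by norm_num)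
    rw [show 2 * (X + 1) + -1 = 2 * X + 1 by ring, r1] at r2
    simp only [nb, sub] at r2
    norm_num at r2
    have hlab := r2
    have hE : (desub P (X, Y)).e = (desub P (X + 1, Y)).w := by
      rw [e1, e2, m1, ← f5, m2]; congr 3; ring
    unfold east west
    rw [hE, hlab]
  · intro X Y a b c d
    obtain ⟨p1, p2, p3⟩ := desub_facts h X Y (by omega) (by omega) (by omega) (by omega)
    obtain ⟨q1, q2, q3⟩ := desub_facts h X (Y + 1) (by omega) (by omega) (by omega) (by omega)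
    have e1 : (desub P (X, Y)).n = (P (2 * X, 2 * Y)).n := by unfold Tile.n; rw [p2]
    have e2 : (desub P (X, Y + 1)).s = (P (2 * X, 2 * (Y + 1))).s := by unfold Tile.s; rw [q2]
    have m1 := congrArg Prod.fst (h.1.2 (2 * X) (2 * Y) (by omega) (by omega) (by omega) (by omega))
    have m2 := congrArg Prod.fst
      (h.1.2 (2 * X) (2 * Y + 1) (by omega) (by omega) (by omega) (by omega))
    simp only [north, south] at m1 m2
    have l01 := h.2 (2 * X) (2 * Y + 1) (by omega) (by omega) (by omega) (by omega)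
    rw [show decide ((2 * Y + 1) % 2 = 1) = true by rw [decide_eq_true_eq]; omega,
      show decide (2 * X % 2 = 1) = false by simp] at l01
    obtain ⟨-, -, -, -, f5⟩ := vv_facts _ l01
    have r1 := p3 1 1 (by norm_num) (by norm_num)
    have r2 := q3 1 (-1) (by norm_num) (by norm_num)
    rw [show 2 * (Y + 1) + -1 = 2 * Y + 1 by ring, r1] at r2
    simp only [nb, sub] at r2
    norm_num at r2
    have hlab := r2
    have hE : (desub P (X, Y)).n = (desub P (X, Y + 1)).s := by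
      rw [e1, e2, m1, ← f5, m2]; congr 3; ring
    unfold north south
    rw [hE, hlab]

end

/-- **[T-lang], width form.** -/
theorem lang_width (w : ℕ) : ∃ M : ℕ, ∀ (P : ℤ × ℤ → Tile) (x₁ y₁ : ℤ),
    LegalBox P (x₁ - M) (x₁ + w + M) (y₁ - M) (y₁ + w + M) →
    ∃ u : ℤ × ℤ, ∀ a b : ℤ, 0 ≤ a → a ≤ w → 0 ≤ b → b ≤ w →
      P (x₁ + a, y₁ + b) = t (u.1 + a, u.2 + b) := by
  induction w using Nat.strong_induction_on with
  | _ w ih =>
    rcases Nat.eq_zero_or_pos w with rfl | hw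
    · refine ⟨0, fun P x₁ y₁ _ => ?_⟩
      obtain ⟨a, b, -, -, -, -, h⟩ := t_prim (P (x₁, y₁)) 0 0
      refine ⟨(2 ^ 7 * 0 + a, 2 ^ 7 * 0 + b), fun a' b' h1 h2 h3 h4 => ?_⟩
      have ea : a' = 0 := by simp at h2; omega
      have eb : b' = 0 := by simp at h4; omega
      subst ea eb
      simp only [add_zero, h]
    · obtain ⟨M', hM'⟩ := ih (w / 2) (by omega)
      refine ⟨2 * M' + 4, fun P x₁ y₁ hP => ?_⟩
      push_cast at hP
      obtain ⟨p, q, hp0, hp1, hq0, hq1, hlab⟩ := lab_of_legal hP (by omega) (by omega)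
      set Q : ℤ × ℤ → Tile := fun u => P (u.1 - p, u.2 - q) with hQ
      have hQal : AlignedBox Q (x₁ - (2 * M' + 4) + p) (x₁ + w + (2 * M' + 4) + p)
          (y₁ - (2 * M' + 4) + q) (y₁ + w + (2 * M' + 4) + q) := by
        refine ⟨⟨fun x y a b c d => ?_, fun x y a b c d => ?_⟩, fun x y a b c d => ?_⟩
        · have := hP.1 (x - p) (y - q) (by omega) (by omega) (by omega) (by omega)
          simp only [hQ]
          rw [this, show x - p + 1 = x + 1 - p by ring]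
        · have := hP.2 (x - p) (y - q) (by omega) (by omega) (by omega) (by omega)
          simp only [hQ]
          rw [this, show y - q + 1 = y + 1 - q by ring]
        · have := hlab (x - p) (y - q) (by omega) (by omega) (by omega) (by omega)
          simp only [hQ]
          rw [this, show x - p + p = x by ring, show y - q + q = y by ring]
      set X₁ := (x₁ + p + 1) / 2 with hX
      set Y₁ := (y₁ + q + 1) / 2 with hY
      have hleg : LegalBox (desub Q) (X₁ - M') (X₁ + ((w / 2 : ℕ) : ℤ) + M') (Y₁ - M')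
          (Y₁ + ((w / 2 : ℕ) : ℤ) + M') := by
        apply desub_legal hQal <;> push_cast <;> omega
      obtain ⟨u, hu⟩ := hM' (desub Q) X₁ Y₁ hleg
      refine ⟨(2 * (u.1 - X₁) + x₁ + p, 2 * (u.2 - Y₁) + y₁ + q), fun a b ha0 ha1 hb0 hb1 => ?_⟩
      -- the corner used for the site `x₁ + p + a`
      have cor : ∀ z X a : ℤ, X = (z + 1) / 2 → 0 ≤ a → a ≤ w → ∃ c : ℤ, 0 ≤ c ∧
          c ≤ ((w / 2 : ℕ) : ℤ) ∧ |z + a - 2 * (X + c)| ≤ 1 := by
        intro z X a hX ha0 ha1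
        rcases eq_or_lt_of_le ha0 with h | h
        · refine ⟨0, le_rfl, by positivity, ?_⟩
          rw [abs_le]; constructor <;> omega
        · refine ⟨(z + a) / 2 - X, by omega, ?_, ?_⟩
          · push_cast; omega
          · rw [abs_le]; constructor <;> omega
      obtain ⟨c, hc0, hc1, hc2⟩ := cor (x₁ + p) X₁ a hX ha0 ha1
      obtain ⟨d, hd0, hd1, hd2⟩ := cor (y₁ + q) Y₁ b hY hb0 hb1
      have f1 := (desub_facts hQal (X₁ + c) (Y₁ + d) (by push_cast at hc1; omega)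
        (by push_cast at hc1; omega) (by push_cast at hd1; omega)
        (by push_cast at hd1; omega)).2.2 _ _ hc2 hd2
      rw [hu c d hc0 hc1 hd0 hd1, ← t_nb _ _ _ _ hc2 hd2] at f1
      have e1 : Q (2 * (X₁ + c) + (x₁ + p + a - 2 * (X₁ + c)),
          2 * (Y₁ + d) + (y₁ + q + b - 2 * (Y₁ + d))) = P (x₁ + a, y₁ + b) := by
        simp only [hQ]; congr 2 <;> ring
      rw [e1] at f1
      rw [f1]
      congr 2 <;> ring

/-- **[T-lang]** for every `m` there is `M` such that the central window of radius `m` of every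
assignment which obeys the Wang rules on the window of radius `M` occurs in `t`. -/
theorem lang (m : ℕ) : ∃ M : ℕ, ∀ P : ℤ × ℤ → Tile,
    (∀ x y : ℤ, |x| ≤ M → |x + 1| ≤ M → |y| ≤ M → (P (x, y)).east = (P (x + 1, y)).west) →
    (∀ x y : ℤ, |x| ≤ M → |y| ≤ M → |y + 1| ≤ M → (P (x, y)).north = (P (x, y + 1)).south) →
    ∃ u : ℤ × ℤ, ∀ a b : ℤ, |a| ≤ m → |b| ≤ m → P (a, b) = t (u.1 + a, u.2 + b) := by
  obtain ⟨M, hM⟩ := lang_width (2 * m)
  refine ⟨M + m, fun P h1 h2 => ?_⟩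
  have hleg : LegalBox P (-m - M) (-m + ((2 * m : ℕ) : ℤ) + M) (-m - M)
      (-m + ((2 * m : ℕ) : ℤ) + M) := by
    refine ⟨fun x y a b c d => h1 x y ?_ ?_ ?_, fun x y a b c d => h2 x y ?_ ?_ ?_⟩ <;>
      (rw [abs_le]; push_cast at *; constructor <;> omega)
  obtain ⟨u, hu⟩ := hM P (-m) (-m) hleg
  refine ⟨(u.1 + m, u.2 + m), fun a b ha hb => ?_⟩
  rw [abs_le] at ha hb
  have := hu (a + m) (b + m) (by omega) (by push_cast; omega) (by omega) (by push_cast; omega)
  rw [show -(m : ℤ) + (a + m) = a by ring, show -(m : ℤ) + (b + m) = b by ring] at this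
  rw [this]; congr 2 <;> ring

end Vale.Agent.P196.Wang
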