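import Vale.Agent.P196.Tile.Local

/-!
# Coarse scales: windows, coarse local sets, types of corners (`T-cut`)
-/

namespace Vale.Agent.P196.Wang

open Tile

/-- passing to the coarser scale `u ↦ u / 2`. -/
theorem SameWin.half {R : ℕ} {u v : ℤ × ℤ} (h : SameWin (2 * R + 2) u v) :
    u.1 % 2 = v.1 % 2 ∧ u.2 % 2 = v.2 % 2 ∧
      SameWin R (u.1 / 2, u.2 / 2) (v.1 / 2, v.2 / 2) := by
  have hR : ((2 * R + 2 : ℕ) : ℤ) = 2 * (R : ℤ) + 2 := by push_cast; ring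
  have hlab : (t u).lab = (t v).lab := by
    have := h 0 0 (by rw [hR, abs_zero]; positivity) (by rw [hR, abs_zero]; positivity)
    simp only [add_zero] at this
    rw [show u = (u.1, u.2) from rfl, show v = (v.1, v.2) from rfl, this]
  rw [t_lab', t_lab', Prod.mk.injEq, decide_eq_decide, decide_eq_decide] at hlab
  have p1 : u.1 % 2 = v.1 % 2 := by omega
  have p2 : u.2 % 2 = v.2 % 2 := by omega
  refine ⟨p1, p2, ?_⟩
  intro a b ha hb
  rw [abs_le] at ha hb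
  apply t_recon
  · have := h (2 * a - u.1 % 2) (2 * b - u.2 % 2) (by rw [hR, abs_le]; constructor <;> omega)
      (by rw [hR, abs_le]; constructor <;> omega)
    have e1 : 2 * (u.1 / 2 + a) = u.1 + (2 * a - u.1 % 2) := by omega
    have e2 : 2 * (u.2 / 2 + b) = u.2 + (2 * b - u.2 % 2) := by omega
    have e3 : 2 * (v.1 / 2 + a) = v.1 + (2 * a - u.1 % 2) := by omega
    have e4 : 2 * (v.2 / 2 + b) = v.2 + (2 * b - u.2 % 2) := by omega
    simp only [e1, e2, e3, e4, this]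
  · have := h (2 * a - u.1 % 2 + 1) (2 * b - u.2 % 2 + 1)
      (by rw [hR, abs_le]; constructor <;> omega)
      (by rw [hR, abs_le]; constructor <;> omega)
    have e1 : 2 * (u.1 / 2 + a) + 1 = u.1 + (2 * a - u.1 % 2 + 1) := by omega
    have e2 : 2 * (u.2 / 2 + b) + 1 = u.2 + (2 * b - u.2 % 2 + 1) := by omega
    have e3 : 2 * (v.1 / 2 + a) + 1 = v.1 + (2 * a - u.1 % 2 + 1) := by omega
    have e4 : 2 * (v.2 / 2 + b) + 1 = v.2 + (2 * b - u.2 % 2 + 1) := by omega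
    simp only [e1, e2, e3, e4, this]

/-- radius needed at the fine scale -/
def radc : ℕ → ℕ → ℕ
  | 0, R => R
  | m + 1, R => 2 * radc m R + 2

/-- passing to the scale `2^m`. -/
theorem SameWin.coarse (m : ℕ) {R : ℕ} {u v : ℤ × ℤ} (h : SameWin (radc m R) u v) :
    u.1 % 2 ^ m = v.1 % 2 ^ m ∧ u.2 % 2 ^ m = v.2 % 2 ^ m ∧
      SameWin R (u.1 / 2 ^ m, u.2 / 2 ^ m) (v.1 / 2 ^ m, v.2 / 2 ^ m) := by
  induction m generalizing u v with
  | zero => simpa [radc, Int.emod_one] using h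
  | succ m ih =>
    obtain ⟨p1, p2, h2⟩ := SameWin.half h
    obtain ⟨i1, i2, i3⟩ := ih h2
    have aux : ∀ x y : ℤ, x % 2 = y % 2 → x / 2 % 2 ^ m = y / 2 % 2 ^ m →
        x % 2 ^ (m + 1) = y % 2 ^ (m + 1) := by
      intro x y h1 h2
      have h3 : (2 : ℤ) ^ m ∣ x / 2 - y / 2 := Int.ModEq.dvd (Int.ModEq.symm h2)
      obtain ⟨c, hc⟩ := h3
      have h4 : x - y = 2 ^ (m + 1) * c := by
        have : x - y = 2 * (x / 2 - y / 2) := by omega
        rw [this, hc]; ring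
      exact (Int.ModEq.symm ((Int.modEq_iff_dvd).2 ⟨c, h4⟩))
    have aux2 : ∀ x : ℤ, x / 2 / 2 ^ m = x / 2 ^ (m + 1) := by
      intro x
      rw [Int.ediv_ediv_of_nonneg (by norm_num : (0 : ℤ) ≤ 2), pow_succ']
    refine ⟨aux _ _ p1 i1, aux _ _ p2 i2, ?_⟩
    simpa only [aux2] using i3

/-- coarse local sets: if `F` is local, so is `{u | u % 2^m ∈ S and u / 2^m ∈ F}`. -/
theorem LS_coarse (m : ℕ) (S : Set (ℤ × ℤ)) {F : Set (ℤ × ℤ)} (hF : F ∈ LS) :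
    {u : ℤ × ℤ | (u.1 % 2 ^ m, u.2 % 2 ^ m) ∈ S ∧ (u.1 / 2 ^ m, u.2 / 2 ^ m) ∈ F} ∈ LS := by
  obtain ⟨R, hR⟩ := hF
  refine ⟨radc m R, fun u v h => ?_⟩
  obtain ⟨h1, h2, h3⟩ := h.coarse
  change (u.1 % 2 ^ m, u.2 % 2 ^ m) ∈ S ∧ (u.1 / 2 ^ m, u.2 / 2 ^ m) ∈ F ↔
    (v.1 % 2 ^ m, v.2 % 2 ^ m) ∈ S ∧ (v.1 / 2 ^ m, v.2 / 2 ^ m) ∈ F
  rw [h1, h2, hR _ _ h3]

/-- the set `2^m F + c` is local if `F` is. -/
theorem LS_scale (m : ℕ) (c : ℤ × ℤ) {F : Set (ℤ × ℤ)} (hF : F ∈ LS) :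
    {u : ℤ × ℤ | ∃ w ∈ F, u = (2 ^ m * w.1 + c.1, 2 ^ m * w.2 + c.2)} ∈ LS := by
  have h := LS_translate (LS_coarse m {(0, 0)} hF) c
  convert h using 1
  ext ⟨x, y⟩
  have hp : (0 : ℤ) < 2 ^ m := by positivity
  have hm : ∀ a : ℤ, 2 ^ m * a % 2 ^ m = 0 := fun a => Int.mul_emod_right _ _
  have hd : ∀ a : ℤ, 2 ^ m * a / 2 ^ m = a := fun a => Int.mul_ediv_cancel_left _ hp.ne'
  constructor
  · rintro ⟨w, hw, h⟩
    obtain ⟨rfl, rfl⟩ := Prod.mk.inj h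
    change ((2 ^ m * w.1 + c.1 - c.1) % 2 ^ m, (2 ^ m * w.2 + c.2 - c.2) % 2 ^ m) ∈
      ({(0, 0)} : Set (ℤ × ℤ)) ∧ ((2 ^ m * w.1 + c.1 - c.1) / 2 ^ m,
        (2 ^ m * w.2 + c.2 - c.2) / 2 ^ m) ∈ F
    rw [add_sub_cancel_right, add_sub_cancel_right, hm, hm, hd, hd]
    exact ⟨rfl, hw⟩
  · rintro ⟨h1, h2⟩
    change ((x - c.1) % 2 ^ m, (y - c.2) % 2 ^ m) ∈ ({(0, 0)} : Set (ℤ × ℤ)) at h1
    obtain ⟨h3, h4⟩ := Prod.mk.inj (Set.mem_singleton_iff.1 h1)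
    refine ⟨_, h2, ?_⟩
    have e1 := Int.mul_ediv_add_emod (x - c.1) (2 ^ m)
    have e2 := Int.mul_ediv_add_emod (y - c.2) (2 ^ m)
    rw [h3] at e1
    rw [h4] at e2
    refine Prod.ext ?_ ?_
    · change x = 2 ^ m * ((x - c.1) / 2 ^ m) + c.1
      linarith
    · change y = 2 ^ m * ((y - c.2) / 2 ^ m) + c.2
      linarith

/-- equal windows of radius `r` at the corners `j, j'` give equal `t` on the open squares of
radius `2^m (r + 1)` around `2^m j`, `2^m j'`. -/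
theorem near_win (m r : ℕ) {j j' : ℤ × ℤ} (h : SameWin r j j') (a b : ℤ)
    (ha : |a| < 2 ^ m * (r + 1)) (hb : |b| < 2 ^ m * (r + 1)) :
    t (2 ^ m * j.1 + a, 2 ^ m * j.2 + b) = t (2 ^ m * j'.1 + a, 2 ^ m * j'.2 + b) := by
  have hp : (0 : ℤ) < 2 ^ m := by positivity
  have key : ∀ a : ℤ, |a| < 2 ^ m * (r + 1) → ∃ e a' : ℤ, |e| ≤ r ∧ |a'| < 2 ^ m ∧
      a = 2 ^ m * e + a' := by
    intro a ha
    have h1 := Int.mul_ediv_add_emod a (2 ^ m)
    have h2 := Int.emod_nonneg a hp.ne'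
    have h3 := Int.emod_lt_of_pos a hp
    rw [abs_lt] at ha
    by_cases h0 : 0 ≤ a
    · refine ⟨a / 2 ^ m, a % 2 ^ m, ?_, by rw [abs_of_nonneg h2]; exact h3, h1.symm⟩
      have h4 : a / 2 ^ m < r + 1 := Int.ediv_lt_of_lt_mul hp (by linarith [ha.2])
      have h5 : 0 ≤ a / 2 ^ m := Int.ediv_nonneg h0 hp.le
      rw [abs_le]; constructor <;> linarith
    · -- use `-a`
      have g1 := Int.mul_ediv_add_emod (-a) (2 ^ m)
      have g2 := Int.emod_nonneg (-a) hp.ne'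
      have g3 := Int.emod_lt_of_pos (-a) hp
      refine ⟨-((-a) / 2 ^ m), -((-a) % 2 ^ m), ?_, ?_, ?_⟩
      · have h4 : (-a) / 2 ^ m < r + 1 := Int.ediv_lt_of_lt_mul hp (by linarith [ha.1])
        have h5 : 0 ≤ (-a) / 2 ^ m := Int.ediv_nonneg (by linarith) hp.le
        rw [abs_neg, abs_le]; constructor <;> linarith
      · rw [abs_neg, abs_of_nonneg g2]; exact g3
      · rw [mul_neg, ← neg_add, g1, neg_neg]
  obtain ⟨e, a', he, ha', rfl⟩ := key a ha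
  obtain ⟨f, b', hf, hb', rfl⟩ := key b hb
  have := near m (h e f he hf) a' b' ha' hb'
  rw [show (2 : ℤ) ^ m * j.1 + (2 ^ m * e + a') = 2 ^ m * (j.1 + e) + a' by ring,
    show (2 : ℤ) ^ m * j.2 + (2 ^ m * f + b') = 2 ^ m * (j.2 + f) + b' by ring,
    show (2 : ℤ) ^ m * j'.1 + (2 ^ m * e + a') = 2 ^ m * (j'.1 + e) + a' by ring,
    show (2 : ℤ) ^ m * j'.2 + (2 ^ m * f + b') = 2 ^ m * (j'.2 + f) + b' by ring, this]

/-- types of radius `r`: the pattern of `t` on the window of radius `r` (a finite type). -/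
abbrev Ty (r : ℕ) : Type := Fin (2 * r + 1) × Fin (2 * r + 1) → Tile

/-- the type of radius `r` of `j`. -/
def typ (r : ℕ) (j : ℤ × ℤ) : Ty r := fun p => t (j.1 + ((p.1 : ℕ) : ℤ) - r, j.2 + ((p.2 : ℕ) : ℤ) - r)

theorem typ_eq_iff (r : ℕ) (j j' : ℤ × ℤ) : typ r j = typ r j' ↔ SameWin r j j' := by
  constructor
  · intro h a b ha hb
    rw [abs_le] at ha hb
    have := congrFun h (⟨(a + r).toNat, by omega⟩, ⟨(b + r).toNat, by omega⟩)
    simp only [typ] at this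
    rw [Int.toNat_of_nonneg (by omega), Int.toNat_of_nonneg (by omega)] at this
    convert this using 3 <;> ring
  · intro h
    funext p
    have h1 := p.1.2
    have h2 := p.2.2
    have := h (((p.1 : ℕ) : ℤ) - r) (((p.2 : ℕ) : ℤ) - r) (by rw [abs_le]; constructor <;> omega)
      (by rw [abs_le]; constructor <;> omega)
    simp only [typ]
    convert this using 3 <;> ring

theorem LS_typ (r : ℕ) (S : Set (Ty r)) : {u | typ r u ∈ S} ∈ LS :=
  ⟨r, fun u v h => by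
    change typ r u ∈ S ↔ typ r v ∈ S
    rw [(typ_eq_iff r u v).2 h]⟩

/-- the corners of level `m` of type `τ`. -/
def corner (m r : ℕ) (τ : Ty r) : Set (ℤ × ℤ) :=
  {u | ∃ j : ℤ × ℤ, typ r j = τ ∧ u = (2 ^ m * j.1, 2 ^ m * j.2)}

theorem LS_corner (m r : ℕ) (τ : Ty r) : corner m r τ ∈ LS := by
  have := LS_scale m (0, 0) (LS_typ r {τ})
  convert this using 1
  ext u
  simp [corner]

/-- **[T-cut]**: a local set of radius `R` is constant on `corner m r τ + u` for `u` in the open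
square of radius `2^m (r+1) - R`. -/
theorem cut {E : Set (ℤ × ℤ)} {R : ℕ} (hE : ∀ u v : ℤ × ℤ, SameWin R u v → (u ∈ E ↔ v ∈ E))
    (m r : ℕ) {j j' : ℤ × ℤ} (h : typ r j = typ r j') (u : ℤ × ℤ)
    (h1 : |u.1| + R < 2 ^ m * (r + 1)) (h2 : |u.2| + R < 2 ^ m * (r + 1)) :
    ((2 ^ m * j.1 + u.1, 2 ^ m * j.2 + u.2) ∈ E ↔
      (2 ^ m * j'.1 + u.1, 2 ^ m * j'.2 + u.2) ∈ E) := by
  apply hE
  intro a b ha hb
  have := near_win m r ((typ_eq_iff r j j').1 h) (u.1 + a) (u.2 + b)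
    (lt_of_le_of_lt (abs_add_le _ _) (by linarith)) (lt_of_le_of_lt (abs_add_le _ _) (by linarith))
  simpa only [add_assoc] using this

/-- **[T-cut]**, one-tile version: the pattern around a level-`m` corner `2^m j` up to distance
`2^m - R` is determined by the tile `t j`. -/
theorem cut_zero {E : Set (ℤ × ℤ)} {R : ℕ} (hE : ∀ u v : ℤ × ℤ, SameWin R u v → (u ∈ E ↔ v ∈ E))
    (m : ℕ) {j j' : ℤ × ℤ} (h : t j = t j') (u : ℤ × ℤ)
    (h1 : |u.1| + R < 2 ^ m) (h2 : |u.2| + R < 2 ^ m) :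
    ((2 ^ m * j.1 + u.1, 2 ^ m * j.2 + u.2) ∈ E ↔
      (2 ^ m * j'.1 + u.1, 2 ^ m * j'.2 + u.2) ∈ E) := by
  apply hE
  intro a b ha hb
  have := near m h (u.1 + a) (u.2 + b)
    (lt_of_le_of_lt (abs_add_le _ _) (by linarith)) (lt_of_le_of_lt (abs_add_le _ _) (by linarith))
  simpa only [add_assoc] using this

/-- types of radius `1` contain the tile, and determine the tiles of the four blocks around
a corner, the two blocks along an edge, etc. -/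
theorem t_of_typ {r : ℕ} {j j' : ℤ × ℤ} (h : typ r j = typ r j') (w : ℤ × ℤ) (h1 : |w.1| ≤ r)
    (h2 : |w.2| ≤ r) : t (j + w) = t (j' + w) :=
  (typ_eq_iff r j j').1 h w.1 w.2 h1 h2

/-- the tile at `j` determines the labels of all neighbours, in particular the parity. -/
theorem lab_of_t {j j' : ℤ × ℤ} (h : t j = t j') : j.1 % 2 = j'.1 % 2 ∧ j.2 % 2 = j'.2 % 2 := by
  have := congrArg Tile.lab h
  rw [t_lab', t_lab', Prod.mk.injEq, decide_eq_decide, decide_eq_decide] at this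
  omega

end Vale.Agent.P196.Wang
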