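import Mathlib.Data.Fintype.Prod
import Mathlib.Data.Fintype.Sum
import Mathlib.Data.Fintype.Option
import Mathlib.Data.Fintype.Sigma
import Mathlib.Tactic

/-!
# The 104 Wang tiles (helper48, note 1563) and the tiling `t : ℤ × ℤ → Tile`

`κ ∈ {1,3}²` is coded by `K = Bool × Bool` (`false` is `1`, `true` is `3`).  A colour is
`(κ, d)`, where `d = true` means pointing right or up, `d = false` means pointing left or down.
-/

namespace Vale.Agent.P196.Wang

/-- classes `κ ∈ {1,3}²`: `false` is `1`, `true` is `3`. -/
abbrev K := Bool × Bool

/-- colours of edges: class of the cross where the arrow starts, and the direction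
(`true`: right or up, `false`: left or down). -/
abbrev Col := K × Bool

/-- the 52 bare tiles.  `harm c x o`: `W = E = (c, d)`, the cross above has `κ' = (x, κ'_y)`;
`o = none` iff `κ'_y = 3`, and then `d = x`; `o = some d` iff `κ'_y = 1`. -/
inductive Bare
  | cross (k : K)
  | harm (c : K) (x : Bool) (o : Option Bool)
  | varm (c : K) (y : Bool) (o : Option Bool)
  deriving DecidableEq, Fintype, Repr

/-- the 104 tiles: bare tiles with the label (parity of the coordinates) `(1,1)`, `(1,0)`,
`(0,1)`, `(0,0)` respectively. -/
inductive Tile
  | cc (k : K)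
  | hh (c : K) (x : Bool) (o : Option Bool)
  | vv (c : K) (y : Bool) (o : Option Bool)
  | ee (b : Bare)
  deriving DecidableEq, Fintype, Repr

def Bare.east : Bare → Col
  | .cross k => (k, true)
  | .harm c x none => (c, x)
  | .harm c _ (some d) => (c, d)
  | .varm _ y none => ((true, y), false)
  | .varm _ y (some _) => ((false, y), false)

def Bare.west : Bare → Col
  | .cross k => (k, false)
  | .harm c x none => (c, x)
  | .harm c _ (some d) => (c, d)
  | .varm _ y none => ((false, y), true)
  | .varm _ y (some _) => ((true, y), true)

def Bare.north : Bare → Col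
  | .cross k => (k, true)
  | .harm _ x none => ((x, true), false)
  | .harm _ x (some _) => ((x, false), false)
  | .varm c y none => (c, y)
  | .varm c _ (some d) => (c, d)

def Bare.south : Bare → Col
  | .cross k => (k, false)
  | .harm _ x none => ((x, false), true)
  | .harm _ x (some _) => ((x, true), true)
  | .varm c y none => (c, y)
  | .varm c _ (some d) => (c, d)

namespace Tile

def lab : Tile → Bool × Bool
  | .cc _ => (true, true)
  | .hh _ _ _ => (true, false)
  | .vv _ _ _ => (false, true)
  | .ee _ => (false, false)

def bare : Tile → Bare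
  | .cc k => .cross k
  | .hh c x o => .harm c x o
  | .vv c y o => .varm c y o
  | .ee b => b

/-- colours without the parity information -/
def e (τ : Tile) : Col := τ.bare.east
def w (τ : Tile) : Col := τ.bare.west
def n (τ : Tile) : Col := τ.bare.north
def s (τ : Tile) : Col := τ.bare.south

/-- Wang colours: colour and label of the tile to the west / south of the edge -/
abbrev WCol := Col × (Bool × Bool)

def east (τ : Tile) : WCol := (τ.e, τ.lab)
def west (τ : Tile) : WCol := (τ.w, (!τ.lab.1, τ.lab.2))
def north (τ : Tile) : WCol := (τ.n, τ.lab)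
def south (τ : Tile) : WCol := (τ.s, (τ.lab.1, !τ.lab.2))

/-- the substitution: `sub τ a b` is the tile at `(2x+a, 2y+b)` if `τ` is the tile at `(x,y)` -/
def sub (τ : Tile) : Bool → Bool → Tile
  | false, false => .ee τ.bare
  | true, true => .cc τ.lab
  | true, false => .hh τ.e.1 τ.lab.1 (if τ.lab.2 then none else some τ.e.2)
  | false, true => .vv τ.n.1 τ.lab.2 (if τ.lab.1 then none else some τ.n.2)

end Tile

open Tile

/-- the four seed tiles at `0, -1` (corner = cross `(1,1)` at the origin) -/
def seed (x y : ℤ) : Tile :=
  if 0 ≤ x then
    if 0 ≤ y then .ee (.cross (false, false)) else .vv (false, false) true (some false)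
  else
    if 0 ≤ y then .hh (false, false) true (some false) else .cc (true, true)

/-- approximations of the tiling -/
def tk : ℕ → ℤ → ℤ → Tile
  | 0, x, y => seed x y
  | k + 1, x, y => (tk k (x / 2) (y / 2)).sub (decide (x % 2 = 1)) (decide (y % 2 = 1))

/-- the tiling -/
def t (u : ℤ × ℤ) : Tile := tk (u.1.natAbs + u.2.natAbs) u.1 u.2

end Vale.Agent.P196.Wang
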