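import Vale.Agent.P196.Tile.AM
import Vale.Agent.P196.Tile.Cut

/-!
# The pattern near vertices, edges and faces of level `m` (request of helper979, note 4963)

`p` is a coarse vertex, `a` a relative position, `L = 2^m`.
-/

namespace Vale.Agent.P196.Wang

open Tile

private theorem par_dvd {p p' : ℤ × ℤ} (h : (t p).lab = (t p').lab) :
    (2 : ℤ) ∣ p'.1 - p.1 ∧ (2 : ℤ) ∣ p'.2 - p.2 := by
  rw [t_lab', t_lab', Prod.mk.injEq, decide_eq_decide, decide_eq_decide] at h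
  omega

private theorem lift_dvd (m : ℕ) {x x' a : ℤ} (h : (2 : ℤ) ∣ x' - x) :
    (2 : ℤ) ^ (m + 1) ∣ (2 ^ m * x' + a) - (2 ^ m * x + a) := by
  rw [show (2 ^ m * x' + a) - (2 ^ m * x + a) = 2 ^ m * (x' - x) by ring, pow_succ]
  exact mul_dvd_mul_left _ h

private theorem not_dvd_of_pos (m : ℕ) {x a : ℤ} (h0 : a ≠ 0) (h1 : |a| < 2 ^ m) :
    ¬ (2 : ℤ) ^ m ∣ 2 ^ m * x + a := by
  intro h
  have : (2 : ℤ) ^ m ∣ a := by
    have := (Int.dvd_add_right (Dvd.intro x rfl)).1 h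
    exact this
  exact h0 (Int.eq_zero_of_abs_lt_dvd this h1)

/-- **vertex** -/
theorem vertex_eq (m : ℕ) {p p' : ℤ × ℤ} (h : t p = t p') (a : ℤ × ℤ) (h1 : |a.1| < 2 ^ m)
    (h2 : |a.2| < 2 ^ m) :
    t (2 ^ m * p.1 + a.1, 2 ^ m * p.2 + a.2) = t (2 ^ m * p'.1 + a.1, 2 ^ m * p'.2 + a.2) :=
  near m h a.1 a.2 h1 h2

/-- **face** -/
theorem face_eq (m : ℕ) {p p' : ℤ × ℤ} (h : (t p).lab = (t p').lab) (a : ℤ × ℤ)
    (h1 : 0 < a.1) (h1' : a.1 < 2 ^ m) (h2 : 0 < a.2) (h2' : a.2 < 2 ^ m) :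
    t (2 ^ m * p.1 + a.1, 2 ^ m * p.2 + a.2) = t (2 ^ m * p'.1 + a.1, 2 ^ m * p'.2 + a.2) := by
  obtain ⟨d1, d2⟩ := par_dvd h
  exact t_face m (lift_dvd m d1) (lift_dvd m d2)
    (not_dvd_of_pos m h1.ne' (by rw [abs_of_pos h1]; exact h1'))
    (not_dvd_of_pos m h2.ne' (by rw [abs_of_pos h2]; exact h2'))

/-- **horizontal edge** from `p` to `p + (1,0)` -/
theorem hedge_eq (m : ℕ) {p p' : ℤ × ℤ} (h : (t p).east = (t p').east) (a : ℤ × ℤ)
    (h1 : 0 < a.1) (h1' : a.1 < 2 ^ m) (h2 : |a.2| < 2 ^ m) :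
    t (2 ^ m * p.1 + a.1, 2 ^ m * p.2 + a.2) = t (2 ^ m * p'.1 + a.1, 2 ^ m * p'.2 + a.2) := by
  have he : (t p).e = (t p').e := congrArg Prod.fst h
  have hl : (t p).lab = (t p').lab := congrArg Prod.snd h
  obtain ⟨d1, d2⟩ := par_dvd hl
  have hx := not_dvd_of_pos m (x := p.1) h1.ne' (by rw [abs_of_pos h1]; exact h1')
  rcases eq_or_ne a.2 0 with h0 | h0
  · rw [h0, add_zero, add_zero]
    have hL : (0 : ℤ) < 2 ^ m := by positivity
    refine t_hline m (lift_dvd m d1) d2 hx ?_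
    rw [div_eq_of_bounds hL (show 2 ^ m * p.1 ≤ 2 ^ m * p.1 + a.1 by linarith) (by linarith),
      div_eq_of_bounds hL (show 2 ^ m * p'.1 ≤ 2 ^ m * p'.1 + a.1 by linarith) (by linarith)]
    exact he
  · exact t_face m (lift_dvd m d1) (lift_dvd m d2) hx (not_dvd_of_pos m h0 h2)

/-- **vertical edge** from `p` to `p + (0,1)` -/
theorem vedge_eq (m : ℕ) {p p' : ℤ × ℤ} (h : (t p).north = (t p').north) (a : ℤ × ℤ)
    (h1 : |a.1| < 2 ^ m) (h2 : 0 < a.2) (h2' : a.2 < 2 ^ m) :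
    t (2 ^ m * p.1 + a.1, 2 ^ m * p.2 + a.2) = t (2 ^ m * p'.1 + a.1, 2 ^ m * p'.2 + a.2) := by
  have he : (t p).n = (t p').n := congrArg Prod.fst h
  have hl : (t p).lab = (t p').lab := congrArg Prod.snd h
  obtain ⟨d1, d2⟩ := par_dvd hl
  have hy := not_dvd_of_pos m (x := p.2) h2.ne' (by rw [abs_of_pos h2]; exact h2')
  rcases eq_or_ne a.1 0 with h0 | h0
  · rw [h0, add_zero, add_zero]
    have hL : (0 : ℤ) < 2 ^ m := by positivity
    refine t_vline m d1 (lift_dvd m d2) hy ?_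
    rw [div_eq_of_bounds hL (show 2 ^ m * p.2 ≤ 2 ^ m * p.2 + a.2 by linarith) (by linarith),
      div_eq_of_bounds hL (show 2 ^ m * p'.2 ≤ 2 ^ m * p'.2 + a.2 by linarith) (by linarith)]
    exact he
  · exact t_face m (lift_dvd m d1) (lift_dvd m d2) (not_dvd_of_pos m h0 h1) hy

/-! ### window versions for local sets of radius `R` -/

section

variable {E : Set (ℤ × ℤ)} {R : ℕ} (hE : ∀ u v : ℤ × ℤ, SameWin R u v → (u ∈ E ↔ v ∈ E))

include hE

theorem vertex_mem (m : ℕ) {p p' : ℤ × ℤ} (h : t p = t p') (a : ℤ × ℤ)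
    (h1 : |a.1| + R < 2 ^ m) (h2 : |a.2| + R < 2 ^ m) :
    ((2 ^ m * p.1 + a.1, 2 ^ m * p.2 + a.2) ∈ E ↔
      (2 ^ m * p'.1 + a.1, 2 ^ m * p'.2 + a.2) ∈ E) :=
  cut_zero hE m h a h1 h2

theorem face_mem (m : ℕ) {p p' : ℤ × ℤ} (h : (t p).lab = (t p').lab) (a : ℤ × ℤ)
    (h1 : R < a.1) (h1' : a.1 + R < 2 ^ m) (h2 : R < a.2) (h2' : a.2 + R < 2 ^ m) :
    ((2 ^ m * p.1 + a.1, 2 ^ m * p.2 + a.2) ∈ E ↔
      (2 ^ m * p'.1 + a.1, 2 ^ m * p'.2 + a.2) ∈ E) := by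
  apply hE
  intro c d hc hd
  rw [abs_le] at hc hd
  have := face_eq m h (a.1 + c, a.2 + d) (by simp only; linarith) (by simp only; linarith)
    (by simp only; linarith) (by simp only; linarith)
  simpa only [add_assoc] using this

theorem hedge_mem (m : ℕ) {p p' : ℤ × ℤ} (h : (t p).east = (t p').east) (a : ℤ × ℤ)
    (h1 : R < a.1) (h1' : a.1 + R < 2 ^ m) (h2 : |a.2| + R < 2 ^ m) :
    ((2 ^ m * p.1 + a.1, 2 ^ m * p.2 + a.2) ∈ E ↔
      (2 ^ m * p'.1 + a.1, 2 ^ m * p'.2 + a.2) ∈ E) := by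
  apply hE
  intro c d hc hd
  rw [abs_le] at hc
  have := hedge_eq m h (a.1 + c, a.2 + d) (by simp only; linarith) (by simp only; linarith)
    (by simp only; linarith [abs_add_le a.2 d])
  simpa only [add_assoc] using this

theorem vedge_mem (m : ℕ) {p p' : ℤ × ℤ} (h : (t p).north = (t p').north) (a : ℤ × ℤ)
    (h1 : |a.1| + R < 2 ^ m) (h2 : R < a.2) (h2' : a.2 + R < 2 ^ m) :
    ((2 ^ m * p.1 + a.1, 2 ^ m * p.2 + a.2) ∈ E ↔
      (2 ^ m * p'.1 + a.1, 2 ^ m * p'.2 + a.2) ∈ E) := by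
  apply hE
  intro c d hc hd
  rw [abs_le] at hd
  have := vedge_eq m h (a.1 + c, a.2 + d) (by simp only; linarith [abs_add_le a.1 c])
    (by simp only; linarith) (by simp only; linarith)
  simpa only [add_assoc] using this

end

/-! ### the Wang determinations of the coarse types -/

/-- the tile at `p` determines the colours (with labels) of the four edges at `p` -/
theorem types_of_t {p p' : ℤ × ℤ} (h : t p = t p') :
    (t p).east = (t p').east ∧ (t p).north = (t p').north ∧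
    (t (p.1 - 1, p.2)).east = (t (p'.1 - 1, p'.2)).east ∧
    (t (p.1, p.2 - 1)).north = (t (p'.1, p'.2 - 1)).north := by
  refine ⟨by rw [h], by rw [h], ?_, ?_⟩
  · have h1 := t_wang_h (p.1 - 1) p.2
    have h2 := t_wang_h (p'.1 - 1) p'.2
    rw [sub_add_cancel] at h1 h2
    rw [h1, h2]; exact congrArg Tile.west h
  · have h1 := t_wang_v p.1 (p.2 - 1)
    have h2 := t_wang_v p'.1 (p'.2 - 1)
    rw [sub_add_cancel] at h1 h2
    rw [h1, h2]; exact congrArg Tile.south h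

/-- the label at `p` determines the labels everywhere around `p`. -/
theorem lab_add {p p' : ℤ × ℤ} (h : (t p).lab = (t p').lab) (a : ℤ × ℤ) :
    (t (p + a)).lab = (t (p' + a)).lab := by
  obtain ⟨d1, d2⟩ := par_dvd h
  rw [t_lab', t_lab', Prod.mk.injEq, decide_eq_decide, decide_eq_decide]
  simp only [Prod.fst_add, Prod.snd_add]
  omega

end Vale.Agent.P196.Wang
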